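import Claimed.Agent.R282.S34.E.Calc

/-!
# Row 282, package E: candidate times for a small step, and RETIMING

LEAF LF-E-T1 = `e34_cand_one` (`sc_coeff_surj`, `sc_coeff_inv_near`, `sc_coeff_interior`, `sc_coeff_zero`, `sc_coeff_length`),
LEAF LF-E-T2 = `e34_cand_exists` (induction on `l`, generalising `S`, `r`; head: `e34_cand_one`; tail: induction
  hypothesis for `S.step θ p.1 p.2`, then `e34_coeffs_frame` because `S.step θ t p.2` has the same frame),
LEAF LF-E-T3 = `e34_lin_pos` (induction on `N`), `e34_shift_int` (induction on the `Forall₂`).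
`e34_good_exists`, `e34_retime_preAug` are glue.
-/

set_option autoImplicit false

namespace Claimed.Agent.R282

variable {n : ℕ}

/-- one switch: the level `lev(τ) + s a` is attained near `τ` for all small `s > 0` -/
theorem e34_cand_one (θ : Shape n) (G : GenericShape θ) (S : SwState n) (hS : IsFrame S.frame)
    (β : RootD n) (htot : 0 < S.total θ β) (τ : ℝ) (a : ℤ) (hc : TimeCond θ τ a) (ε : ℝ)
    (hε : 0 < ε) :
    ∃ s₁ > 0, ∀ s : ℝ, 0 < s → s ≤ s₁ → ∃ t : ℝ, 0 ≤ t ∧ t ≤ (θ.length : ℝ) ∧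
      S.coeff θ t β = S.coeff θ τ β + s * a ∧ |t - τ| < ε := by
  have hT0 : 0 ≤ τ ∧ τ ≤ (θ.length : ℝ) := by
    rcases hc with ⟨h1, h2⟩ | ⟨h1, -⟩ | ⟨h1, -⟩
    · exact ⟨h1.le, h2.le⟩
    · rw [h1]; exact ⟨le_rfl, Nat.cast_nonneg _⟩
    · rw [h1]; exact ⟨Nat.cast_nonneg _, le_rfl⟩
  obtain ⟨δ, hδ, hnear⟩ := sc_coeff_inv_near θ G S hS β htot τ hT0.1 hT0.2 ε hε
  have hA0 : 0 ≤ |(a : ℝ)| := abs_nonneg _
  -- admissible size of the step
  have hμ : ∃ μ > 0, ∀ s : ℝ, 0 < s → s * |(a : ℝ)| ≤ μ →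
      0 ≤ S.coeff θ τ β + s * a ∧ S.coeff θ τ β + s * a ≤ S.total θ β := by
    rcases hc with ⟨h1, h2⟩ | ⟨h1, h2⟩ | ⟨h1, h2⟩
    · obtain ⟨i1, i2⟩ := sc_coeff_interior θ G S hS β htot τ h1 h2
      refine ⟨min (S.coeff θ τ β) (S.total θ β - S.coeff θ τ β), lt_min i1 (by linarith),
        fun s hs hle => ?_⟩
      have e1 : |s * (a : ℝ)| = s * |(a : ℝ)| := by rw [abs_mul, abs_of_pos hs]
      have e2 := abs_le.1 (e1.le.trans hle)
      have e3 := min_le_left (S.coeff θ τ β) (S.total θ β - S.coeff θ τ β)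
      have e4 := min_le_right (S.coeff θ τ β) (S.total θ β - S.coeff θ τ β)
      constructor <;> linarith [e2.1, e2.2]
    · refine ⟨S.total θ β, htot, fun s hs hle => ?_⟩
      have ha : (0 : ℝ) < a := by exact_mod_cast h2
      rw [abs_of_pos ha] at hle
      rw [h1, sc_coeff_zero θ S hS β]
      constructor
      · positivity
      · linarith
    · refine ⟨S.total θ β, htot, fun s hs hle => ?_⟩
      have ha : (a : ℝ) < 0 := by exact_mod_cast h2
      rw [abs_of_neg ha] at hle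
      rw [h1, sc_coeff_length]
      constructor
      · linarith
      · have : s * (a : ℝ) < 0 := mul_neg_of_pos_of_neg hs ha
        linarith
  obtain ⟨μ, hμ0, hμ⟩ := hμ
  have hmin : 0 < min μ (δ / 2) := lt_min hμ0 (by linarith)
  have hA1 : 0 < |(a : ℝ)| + 1 := by linarith
  refine ⟨min μ (δ / 2) / (|(a : ℝ)| + 1), div_pos hmin hA1, fun s hs hle => ?_⟩
  have hsA : s * |(a : ℝ)| ≤ min μ (δ / 2) := by
    calc s * |(a : ℝ)| ≤ s * (|(a : ℝ)| + 1) := by nlinarith
      _ ≤ min μ (δ / 2) / (|(a : ℝ)| + 1) * (|(a : ℝ)| + 1) :=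
          mul_le_mul_of_nonneg_right hle hA1.le
      _ = min μ (δ / 2) := div_mul_cancel₀ _ hA1.ne'
  obtain ⟨b1, b2⟩ := hμ s hs (hsA.trans (min_le_left _ _))
  obtain ⟨t, t0, t1, ht⟩ := sc_coeff_surj θ G.dom S hS β _ b1 b2
  refine ⟨t, t0, t1, ht, hnear t t0 t1 ?_⟩
  rw [ht, add_sub_cancel_left, abs_mul, abs_of_pos hs]
  have := hsA.trans (min_le_right _ _)
  linarith

/-- all switches -/
theorem e34_cand_exists (θ : Shape n) (G : GenericShape θ) (ε : ℝ) (hε : 0 < ε)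
    (l : List (ℝ × RootD n)) (S : SwState n) (hS : IsFrame S.frame) (r : List ℤ)
    (htot : ∀ a ∈ swTotals θ S l, 0 < a)
    (hc : List.Forall₂ (fun (p : ℝ × RootD n) (a : ℤ) => TimeCond θ p.1 a) l r) :
    ∃ s₁ > 0, ∀ s : ℝ, 0 < s → s ≤ s₁ → ∃ T : List ℝ, T.length = l.length ∧
      (∀ t ∈ T, 0 ≤ t ∧ t ≤ (θ.length : ℝ)) ∧
      swCoeffs θ S (retime T l) = shiftCo s (swCoeffs θ S l) r ∧
      List.Forall₂ (fun t (p : ℝ × RootD n) => |t - p.1| < ε) T l := by
  induction l generalizing S r with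
  | nil =>
    cases hc
    exact ⟨1, one_pos, fun s _ _ => ⟨[], rfl, by simp, rfl, List.Forall₂.nil⟩⟩
  | cons p l ih =>
    cases hc with
    | @cons _ a _ r hca hcr =>
      have hpos : 0 < S.total θ p.2 := htot _ (by rw [swTotals]; exact List.mem_cons_self)
      obtain ⟨s₁, hs₁, h₁⟩ := e34_cand_one θ G S hS p.2 hpos p.1 a hca ε hε
      obtain ⟨s₂, hs₂, h₂⟩ := ih (S.step θ p.1 p.2) (sc_isFrame_refl S.frame hS p.2) r
        (fun b hb => htot b (by rw [swTotals]; exact List.mem_cons_of_mem _ hb)) hcr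
      refine ⟨min s₁ s₂, lt_min hs₁ hs₂, fun s hs hle => ?_⟩
      obtain ⟨t, t0, t1, ht, htn⟩ := h₁ s hs (hle.trans (min_le_left _ _))
      obtain ⟨T, hT, hm, hco, hn⟩ := h₂ s hs (hle.trans (min_le_right _ _))
      refine ⟨t :: T, by simp [hT], ?_, ?_, List.Forall₂.cons htn hn⟩
      · intro u hu
        rcases List.mem_cons.1 hu with rfl | hu
        · exact ⟨t0, t1⟩
        · exact hm u hu
      · rw [e34_retime_cons, swCoeffs, swCoeffs, e34_shiftCo_cons, ht,
          e34_coeffs_frame θ _ (S.step θ t p.2) (S.step θ p.1 p.2) rfl, hco]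

/-- finitely many affine functions that are positive, or zero with nonnegative slope, at `0` -/
theorem e34_lin_pos (N : ℕ) (g d : ℕ → ℝ) (h : ∀ i < N, 0 < g i ∨ (g i = 0 ∧ 0 ≤ d i)) :
    ∃ s₂ > 0, ∀ s : ℝ, 0 < s → s ≤ s₂ → ∀ i < N, 0 ≤ g i + s * d i := by
  induction N with
  | zero => exact ⟨1, one_pos, fun s _ _ i hi => absurd hi (Nat.not_lt_zero i)⟩
  | succ N ih =>
    obtain ⟨s₂, hs₂, h₂⟩ := ih fun i hi => h i (Nat.lt_succ_of_lt hi)
    have hN : ∃ s₃ > 0, ∀ s : ℝ, 0 < s → s ≤ s₃ → 0 ≤ g N + s * d N := by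
      rcases h N (Nat.lt_succ_self N) with hg | ⟨hg, hd⟩
      · have hA1 : 0 < |d N| + 1 := by have := abs_nonneg (d N); linarith
        refine ⟨g N / (|d N| + 1), div_pos hg hA1, fun s hs hle => ?_⟩
        have h1 : s * |d N| ≤ g N := by
          calc s * |d N| ≤ s * (|d N| + 1) := by nlinarith
            _ ≤ g N / (|d N| + 1) * (|d N| + 1) := mul_le_mul_of_nonneg_right hle hA1.le
            _ = g N := div_mul_cancel₀ _ hA1.ne'
        have h2 : -(s * |d N|) ≤ s * d N := by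
          have := neg_abs_le (d N)
          nlinarith
        linarith
      · exact ⟨1, one_pos, fun s hs _ => by rw [hg, zero_add]; positivity⟩
    obtain ⟨s₃, hs₃, h₃⟩ := hN
    refine ⟨min s₂ s₃, lt_min hs₂ hs₃, fun s hs hle i hi => ?_⟩
    rcases Nat.lt_succ_iff_lt_or_eq.1 hi with hi | rfl
    · exact h₂ s hs (hle.trans (min_le_left _ _)) i hi
    · exact h₃ s hs (hle.trans (min_le_right _ _))

/-- (G) EXISTENCE of good candidate lists -/
theorem e34_good_exists (θ : Shape n) (G : GenericShape θ) (S : SwState n) (hS : IsFrame S.frame)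
    (l : List (ℝ × RootD n)) (r : List ℤ) (htot : ∀ a ∈ swTotals θ S l, 0 < a)
    (hc : List.Forall₂ (fun (p : ℝ × RootD n) (a : ℤ) => TimeCond θ p.1 a) l r)
    (hgap : ∀ (i : ℕ) (hi : i < l.length), 0 < (stAt θ S l i).gap θ l[i].1 l[i].2 ∨
      ((stAt θ S l i).gap θ l[i].1 l[i].2 = 0 ∧
        0 ≤ gapLin (r.map (fun z => (z : ℝ))) l i l[i].2))
    (ε : ℝ) (hε : 0 < ε) :
    ∃ s₁ > 0, ∀ s : ℝ, 0 < s → s ≤ s₁ → ∃ T : List ℝ, Good θ S l r s ε T := by
  classical
  obtain ⟨s₁, hs₁, h₁⟩ := e34_cand_exists θ G ε hε l S hS r htot hc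
  obtain ⟨s₂, hs₂, h₂⟩ := e34_lin_pos l.length (fun i => (swGaps θ S l).getD i 0)
    (fun i => if hi : i < l.length then gapLin (r.map (fun z => (z : ℝ))) l i l[i].2 else 0)
    (by
      intro i hi
      simp only [hi, dif_pos]
      rw [sc_gaps_get θ S l i hi]
      exact hgap i hi)
  refine ⟨min s₁ s₂, lt_min hs₁ hs₂, fun s hs hle => ?_⟩
  obtain ⟨T, hT, hm, hco, hn⟩ := h₁ s hs (hle.trans (min_le_left _ _))
  refine ⟨T, hT, hm, hco, hn, ?_⟩
  intro g hg
  obtain ⟨i, hi, rfl⟩ := List.getElem_of_mem hg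
  have hi' : i < l.length := by
    rw [sc_gaps_length, e34_retime_length T l hT] at hi; exact hi
  have h3 := e34_gap_shift θ S l (retime T l) r s (e34_retime_snd T l hT) hc.length_eq.symm hco i hi'
  have h4 := h₂ s hs (hle.trans (min_le_right _ _)) i hi'
  simp only [hi', dif_pos] at h4
  rw [← h3, List.getD_eq_getElem _ _ hi] at h4
  exact h4

/-- `SwGenQ` only depends on the roots -/
theorem e34_gen_congr (l l' : List (ℝ × RootD n)) (h : l'.map Prod.snd = l.map Prod.snd)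
    (hg : SwGenQ l) : SwGenQ l' :=
  fun v hv => (lat_spanZ_congr h).2 (hg v hv)

/-- `IsPrimRel` only depends on the roots -/
theorem e34_rel_congr (r : List ℤ) (l l' : List (ℝ × RootD n))
    (h : l'.map Prod.snd = l.map Prod.snd) (hr : IsPrimRel r l) : IsPrimRel r l' := by
  have hlen : l'.length = l.length := by
    have := congrArg List.length h
    simpa using this
  exact ⟨by rw [hlen]; exact hr.1, by rw [sc_relSum_congr _ l' l h]; exact hr.2.1, hr.2.2⟩

/-- `(m + s r) + (x - s) r = m + x r` -/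
theorem e34_shift_int (x s : ℝ) (m : List ℝ) (r : List ℤ)
    (h : List.Forall₂ (fun (m : ℝ) (a : ℤ) => ∃ z : ℤ, m + x * a = z) m r) :
    List.Forall₂ (fun (m : ℝ) (a : ℤ) => ∃ z : ℤ, m + (x - s) * a = z) (shiftCo s m r) r := by
  induction h with
  | nil => exact List.Forall₂.nil
  | @cons a b m r hab _ ih =>
    rw [e34_shiftCo_cons]
    refine List.Forall₂.cons ?_ ih
    obtain ⟨z, hz⟩ := hab
    exact ⟨z, by rw [← hz]; ring⟩

/-- (R) RETIMING: a good candidate list gives a witness (not nec. sorted) at `x - s` -/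
theorem e34_retime_preAug (lam xi : Vec n) (θ : Shape n) (x s ε : ℝ) (w0 : WD n)
    (l : List (ℝ × RootD n)) (r : List ℤ) (T : List ℝ) (W : PreAug lam θ xi x w0 l r)
    (hT : Good θ ⟨w0.act, lam⟩ l r s ε T) : PreAug lam θ xi (x - s) w0 (retime T l) r := by
  have hsnd := e34_retime_snd T l hT.len
  have hrl : r.length = l.length := W.rel.1
  have hrun : runSw θ ⟨w0.act, lam⟩ (retime T l) = runSw θ ⟨w0.act, lam⟩ l := by
    apply e34_run_eq θ _ l _ hsnd
    rw [hT.co, e34_relSum_shift s _ r l (sc_coeffs_length _ _ _) hrl, W.rel.2.1]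
    simp
  refine ⟨?_, ?_, ?_, ?_, e34_gen_congr l _ hsnd W.gen, e34_rel_congr r l _ hsnd W.rel, ?_⟩
  · intro p hp
    have : p.1 ∈ (retime T l).map Prod.fst := List.mem_map_of_mem hp
    rw [e34_retime_fst T l hT.len] at this
    exact hT.mem _ this
  · rw [sc_valid_iff]
    refine ⟨hT.gap, ?_⟩
    rw [sc_totals_congr θ _ l _ hsnd]
    exact ((sc_valid_iff θ _ l).1 W.valid).2
  · rw [hrun]; exact W.endpoint
  · rw [e34_retime_length T l hT.len]; exact W.len
  · rw [hT.co]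
    exact e34_shift_int x s _ r W.int

end Claimed.Agent.R282
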