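import Claimed.Agent.R282.S34.E.Defs

/-!
# Row 282, package E: list calculus (retiming, dependence on the frames only, splitting)

LEAF LF-E-C1 = section `Retime` (pure list lemmas, `List.zipWith`),
LEAF LF-E-C2 = section `Frames` (inductions on the list of switches, generalising the state),
LEAF LF-E-C3 = section `Shift`  (`relSum`, formula (3.3) = `sc_gap_formula`),
LEAF LF-E-C4 = section `Unique` (strict monotonicity of the level functions, `sc_coeff_strictMono`).
No mathematics.  Everything of `Sched/*` may be used.
-/

set_option autoImplicit false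

namespace Claimed.Agent.R282

variable {n : ℕ}

section Retime

theorem e34_retime_length (T : List ℝ) (l : List (ℝ × RootD n)) (h : T.length = l.length) :
    (retime T l).length = l.length := by
  unfold retime
  rw [List.length_zipWith, h, min_self]

theorem e34_retime_snd (T : List ℝ) (l : List (ℝ × RootD n)) (h : T.length = l.length) :
    (retime T l).map Prod.snd = l.map Prod.snd := by
  induction T generalizing l with
  | nil =>
    have : l = [] := List.length_eq_zero_iff.1 h.symm
    subst this
    rfl
  | cons t T ih =>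
    cases l with
    | nil => simp at h
    | cons p l =>
      have := ih l (by simpa using h)
      unfold retime at this ⊢
      rw [List.zipWith_cons_cons, List.map_cons, List.map_cons, this]

theorem e34_retime_fst (T : List ℝ) (l : List (ℝ × RootD n)) (h : T.length = l.length) :
    (retime T l).map Prod.fst = T := by
  induction T generalizing l with
  | nil => rfl
  | cons t T ih =>
    cases l with
    | nil => simp at h
    | cons p l =>
      have := ih l (by simpa using h)
      unfold retime at this ⊢
      rw [List.zipWith_cons_cons, List.map_cons, this]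

theorem e34_retime_self (l : List (ℝ × RootD n)) : retime (l.map Prod.fst) l = l := by
  induction l with
  | nil => rfl
  | cons p l ih =>
    unfold retime at ih ⊢
    rw [List.map_cons, List.zipWith_cons_cons, ih]

theorem e34_retime_cons (t : ℝ) (T : List ℝ) (p : ℝ × RootD n) (l : List (ℝ × RootD n)) :
    retime (t :: T) (p :: l) = (t, p.2) :: retime T l := rfl

theorem e34_retime_append (T₁ T₂ : List ℝ) (l₁ l₂ : List (ℝ × RootD n))
    (h : T₁.length = l₁.length) :
    retime (T₁ ++ T₂) (l₁ ++ l₂) = retime T₁ l₁ ++ retime T₂ l₂ := by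
  unfold retime
  exact List.zipWith_append h

theorem e34_shiftCo_cons (s a : ℝ) (m : List ℝ) (b : ℤ) (r : List ℤ) :
    shiftCo s (a :: m) (b :: r) = (a + s * b) :: shiftCo s m r := rfl

theorem e34_shiftCo_append (s : ℝ) (m₁ m₂ : List ℝ) (r₁ r₂ : List ℤ)
    (h : m₁.length = r₁.length) :
    shiftCo s (m₁ ++ m₂) (r₁ ++ r₂) = shiftCo s m₁ r₁ ++ shiftCo s m₂ r₂ := by
  unfold shiftCo
  exact List.zipWith_append h

theorem e34_shiftCo_length (s : ℝ) (m : List ℝ) (r : List ℤ) (h : m.length = r.length) :
    (shiftCo s m r).length = m.length := by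
  unfold shiftCo
  rw [List.length_zipWith, ← h, min_self]

theorem e34_shiftCo_getD (s : ℝ) (m : List ℝ) (r : List ℤ) (h : m.length = r.length) (i : ℕ) :
    (shiftCo s m r).getD i 0 = m.getD i 0 + s * (r.getD i 0 : ℤ) := by
  induction m generalizing r i with
  | nil =>
    have : r = [] := List.length_eq_zero_iff.1 h.symm
    subst this
    simp [shiftCo]
  | cons a m ih =>
    cases r with
    | nil => simp at h
    | cons b r =>
      rw [e34_shiftCo_cons]
      cases i with
      | zero => simp
      | succ i =>
        rw [List.getD_cons_succ, List.getD_cons_succ, List.getD_cons_succ]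
        exact ih r (by simpa using h) i

/-- split a list at an index -/
theorem e34_split_two {α : Type*} (l : List α) (i : ℕ) (h : i + 1 < l.length) :
    ∃ (l₁ : List α) (p q : α) (l₂ : List α), l = l₁ ++ p :: q :: l₂ ∧ l₁.length = i := by
  refine ⟨l.take i, l[i], l[i + 1], l.drop (i + 2), ?_, ?_⟩
  · rw [← List.drop_eq_getElem_cons h, ← List.drop_eq_getElem_cons (by omega),
      List.take_append_drop]
  · rw [List.length_take]
    omega

theorem e34_split_one {α : Type*} (l : List α) (i : ℕ) (h : i < l.length) :
    ∃ (l₁ : List α) (p : α) (l₂ : List α), l = l₁ ++ p :: l₂ ∧ l₁.length = i := by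
  refine ⟨l.take i, l[i], l.drop (i + 1), ?_, ?_⟩
  · rw [← List.drop_eq_getElem_cons h, List.take_append_drop]
  · rw [List.length_take]
    omega

end Retime

section Frames

/-- coefficients only depend on the frame of the initial state -/
theorem e34_coeffs_frame (θ : Shape n) (l : List (ℝ × RootD n)) (S S' : SwState n)
    (h : S.frame = S'.frame) : swCoeffs θ S l = swCoeffs θ S' l := by
  induction l generalizing S S' with
  | nil => rfl
  | cons p l ih =>
    rw [swCoeffs, swCoeffs]
    congr 1
    · unfold SwState.coeff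
      rw [h]
    · refine ih _ _ ?_
      simp only [SwState.step]
      rw [h]

theorem e34_totals_frame (θ : Shape n) (l : List (ℝ × RootD n)) (S S' : SwState n)
    (h : S.frame = S'.frame) : swTotals θ S l = swTotals θ S' l :=
  sc_totals_congr_aux θ S' S h l l rfl

/-- the final frame only depends on the roots -/
theorem e34_run_frame (θ : Shape n) (S : SwState n) (l l' : List (ℝ × RootD n))
    (h : l'.map Prod.snd = l.map Prod.snd) : (runSw θ S l').frame = (runSw θ S l).frame := by
  funext x
  rw [sc_runSw_frame, sc_runSw_frame, h]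

theorem e34_state_ext {S S' : SwState n} (h1 : S.frame = S'.frame) (h2 : S.c = S'.c) :
    S = S' := by
  cases S
  cases S'
  simp only at h1 h2
  rw [h1, h2]

/-- EXACTNESS without sortedness: same roots, coefficient vectors differing by a relation: same
final state (`sc_runSw_c`, `sc_relSum_congr`, `e34_run_frame`) -/
theorem e34_run_eq (θ : Shape n) (S : SwState n) (l l' : List (ℝ × RootD n))
    (h : l'.map Prod.snd = l.map Prod.snd)
    (hrel : relSum (swCoeffs θ S l') l = relSum (swCoeffs θ S l) l) :
    runSw θ S l' = runSw θ S l := by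
  refine e34_state_ext (e34_run_frame θ S l l' h) ?_
  rw [sc_runSw_c, sc_runSw_c, sc_relSum_congr _ l' l h, hrel]

theorem e34_mem_totals (θ : Shape n) (S : SwState n) (l : List (ℝ × RootD n)) (a : ℝ)
    (h : a ∈ swTotals θ S l) :
    ∃ l₁ p l₂, l = l₁ ++ p :: l₂ ∧ a = (runSw θ S l₁).total θ p.2 := by
  induction l generalizing S with
  | nil => simp [swTotals] at h
  | cons p l ih =>
    rw [swTotals, List.mem_cons] at h
    rcases h with rfl | h
    · exact ⟨[], p, l, rfl, rfl⟩
    · obtain ⟨l₁, q, l₂, h1, h2⟩ := ih _ h
      exact ⟨p :: l₁, q, l₂, by rw [h1]; rfl, h2⟩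

theorem e34_mem_gaps (θ : Shape n) (S : SwState n) (l : List (ℝ × RootD n)) (g : ℝ)
    (h : g ∈ swGaps θ S l) :
    ∃ l₁ p l₂, l = l₁ ++ p :: l₂ ∧ g = (runSw θ S l₁).gap θ p.1 p.2 := by
  induction l generalizing S with
  | nil => simp [swGaps] at h
  | cons p l ih =>
    rw [swGaps, List.mem_cons] at h
    rcases h with rfl | h
    · exact ⟨[], p, l, rfl, rfl⟩
    · obtain ⟨l₁, q, l₂, h1, h2⟩ := ih _ h
      exact ⟨p :: l₁, q, l₂, by rw [h1]; rfl, h2⟩

theorem e34_totals_mem (θ : Shape n) (S : SwState n) (l₁ l₂ : List (ℝ × RootD n))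
    (p : ℝ × RootD n) : (runSw θ S l₁).total θ p.2 ∈ swTotals θ S (l₁ ++ p :: l₂) := by
  rw [sc_totals_append, swTotals]
  exact List.mem_append_right _ List.mem_cons_self

theorem e34_gaps_mem (θ : Shape n) (S : SwState n) (l₁ l₂ : List (ℝ × RootD n))
    (p : ℝ × RootD n) : (runSw θ S l₁).gap θ p.1 p.2 ∈ swGaps θ S (l₁ ++ p :: l₂) := by
  rw [sc_gaps_append, swGaps]
  exact List.mem_append_right _ List.mem_cons_self

/-- the candidate equation splits along `l₁ ++ l₂` (`e34_retime_append`, `sc_coeffs_append`, `e34_shiftCo_append`,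
`List.append_inj`; for the second part `e34_run_frame` + `e34_coeffs_frame`) -/
theorem e34_co_split (θ : Shape n) (S : SwState n) (s : ℝ) (T₁ T₂ : List ℝ)
    (l₁ l₂ : List (ℝ × RootD n)) (r₁ r₂ : List ℤ) (hT : T₁.length = l₁.length)
    (hr : r₁.length = l₁.length)
    (h : swCoeffs θ S (retime (T₁ ++ T₂) (l₁ ++ l₂))
      = shiftCo s (swCoeffs θ S (l₁ ++ l₂)) (r₁ ++ r₂)) :
    swCoeffs θ S (retime T₁ l₁) = shiftCo s (swCoeffs θ S l₁) r₁ ∧
      swCoeffs θ (runSw θ S l₁) (retime T₂ l₂) = shiftCo s (swCoeffs θ (runSw θ S l₁) l₂) r₂ := by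
  have hl : (swCoeffs θ S l₁).length = r₁.length := by rw [sc_coeffs_length, hr]
  rw [e34_retime_append _ _ _ _ hT, sc_coeffs_append, sc_coeffs_append,
    e34_shiftCo_append _ _ _ _ _ hl] at h
  obtain ⟨h1, h2⟩ := List.append_inj h (by
    rw [sc_coeffs_length, e34_retime_length _ _ hT, e34_shiftCo_length _ _ _ hl, sc_coeffs_length])
  refine ⟨h1, ?_⟩
  rw [← h2]
  exact e34_coeffs_frame θ _ _ _ (e34_run_frame θ S l₁ _ (e34_retime_snd _ _ hT)).symm

theorem e34_tsorted_iff (l : List (ℝ × RootD n)) :
    TSorted l ↔ (l.map Prod.fst).Pairwise (· ≤ ·) := by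
  unfold TSorted
  rw [List.pairwise_map]

end Frames

section Shift

theorem e34_relSum_shift_aux (s : ℝ) (m : List ℝ) (r : List ℤ) (l : List (ℝ × RootD n))
    (h : m.length = r.length) :
    relSum (shiftCo s m r) l = relSum m l + s • relSum (r.map (fun z : ℤ => (z : ℝ))) l := by
  induction m generalizing r l with
  | nil =>
    have : r = [] := List.length_eq_zero_iff.1 h.symm
    subst this
    simp [shiftCo, relSum]
  | cons a m ih =>
    cases r with
    | nil => simp at h
    | cons b r =>
      cases l with
      | nil => simp [relSum]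
      | cons p l =>
        rw [e34_shiftCo_cons, List.map_cons, sc_relSum_cons, sc_relSum_cons, sc_relSum_cons,
          ih r l (by simpa using h), add_smul, smul_add, mul_smul]
        abel

theorem e34_relSum_shift (s : ℝ) (m : List ℝ) (r : List ℤ) (l : List (ℝ × RootD n))
    (h1 : m.length = l.length) (h2 : r.length = l.length) :
    relSum (shiftCo s m r) l = relSum m l + s • relSum (r.map (fun z => (z : ℝ))) l := by
  rw [sd_cast_list]
  exact e34_relSum_shift_aux s m r l (h1.trans h2.symm)

/-- the gaps move linearly: `G_i' = G_i + s r^G_i` (`sc_gap_formula` for `l` and for `l'`,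
`sc_relSum_congr`, `List.take` of a `zipWith`) -/
theorem e34_gap_shift (θ : Shape n) (S : SwState n) (l l' : List (ℝ × RootD n)) (r : List ℤ)
    (s : ℝ) (h : l'.map Prod.snd = l.map Prod.snd) (hr : r.length = l.length)
    (hco : swCoeffs θ S l' = shiftCo s (swCoeffs θ S l) r) (i : ℕ) (hi : i < l.length) :
    (swGaps θ S l').getD i 0
      = (swGaps θ S l).getD i 0 + s * gapLin (r.map (fun z => (z : ℝ))) l i l[i].2 := by
  rw [sd_cast_list]
  have hlen : l'.length = l.length := by
    have := congrArg List.length h
    simpa using this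
  have hi' : i < l'.length := by omega
  have hβ : l'[i].2 = l[i].2 := by
    have h1 : (l'.map Prod.snd)[i]'(by simpa using hi') = (l.map Prod.snd)[i]'(by simpa using hi) := by
      simp only [h]
    simpa using h1
  have hm : (swCoeffs θ S l).length = r.length := by rw [sc_coeffs_length, hr]
  have htake : (shiftCo s (swCoeffs θ S l) r).take i
      = shiftCo s ((swCoeffs θ S l).take i) (r.take i) := by
    unfold shiftCo
    exact List.take_zipWith
  rw [sc_gaps_get θ S l' i hi', sc_gaps_get θ S l i hi, sc_gap_formula θ S l' i hi',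
    sc_gap_formula θ S l i hi, hβ, hco, htake, sc_relSum_congr _ l' l h,
    e34_relSum_shift_aux s _ _ l (by rw [List.length_take, List.length_take, hm]),
    e34_shiftCo_getD s _ _ hm, sc_dot_add_left, sc_dot_smul_left]
  unfold gapLin
  rw [sd_getD_cast, List.map_take]
  ring

end Shift

section Unique

/-- candidate times are unique -/
theorem e34_cand_unique (θ : Shape n) (G : GenericShape θ) (l : List (ℝ × RootD n))
    (S : SwState n) (hS : IsFrame S.frame) (htot : ∀ a ∈ swTotals θ S l, 0 < a)
    (T T' : List ℝ) (hT : T.length = l.length) (hT' : T'.length = l.length)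
    (hm : ∀ t ∈ T, 0 ≤ t ∧ t ≤ (θ.length : ℝ)) (hm' : ∀ t ∈ T', 0 ≤ t ∧ t ≤ (θ.length : ℝ))
    (h : swCoeffs θ S (retime T l) = swCoeffs θ S (retime T' l)) : T = T' := by
  induction l generalizing S T T' with
  | nil =>
    rw [List.length_eq_zero_iff.1 hT, List.length_eq_zero_iff.1 hT']
  | cons p l ih =>
    cases T with
    | nil => simp at hT
    | cons t T =>
      cases T' with
      | nil => simp at hT'
      | cons t' T' =>
        rw [e34_retime_cons, e34_retime_cons, swCoeffs, swCoeffs, List.cons.injEq] at h
        obtain ⟨h1, h2⟩ := h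
        have hpos : 0 < S.total θ p.2 := htot _ (by rw [swTotals]; exact List.mem_cons_self)
        have htt : t = t' :=
          (sc_coeff_strictMono θ G S hS p.2 hpos).injOn (hm t List.mem_cons_self)
            (hm' t' List.mem_cons_self) h1
        subst htt
        congr 1
        refine ih (S.step θ t p.2) (sc_isFrame_refl S.frame hS p.2) ?_ T T' (by simpa using hT)
          (by simpa using hT') (fun u hu => hm u (List.mem_cons_of_mem _ hu))
          (fun u hu => hm' u (List.mem_cons_of_mem _ hu)) h2
        intro a ha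
        refine htot a ?_
        rw [swTotals]
        refine List.mem_cons_of_mem _ ?_
        rwa [e34_totals_frame θ l (S.step θ p.1 p.2) (S.step θ t p.2) rfl]

end Unique

end Claimed.Agent.R282
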