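import Claimed.Agent.R282.S34.E.FromB
import Claimed.Agent.R282.S34.E.Calc

/-!
# Row 282, package E: STRICTNESS of a witness at `0 < x < 1/2` (first paragraph of the proof of Prop 3.6)

`Hard lam θ xi`: every real schedule with at most `n` switches has `n` INDEPENDENT roots.
A witness `(w0, l, r)` has `n+1` switches, `m_i + x r_i ∈ ℤ`, `|r_i| ≤ 2`, `|r^G_i| ≤ 2`.

* zero total at `i`: `m_i = 0` (`sc_del_zero_total`), so `x r_i ∈ ℤ`, `r_i = 0` (`e34_int_small`); the schedule with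
  the switch deleted has independent roots, so `r_i ≠ 0` (`lat_primRel_entry_ne`).
* a switch at time `≤ 0`: then the FIRST switch is at time `0` (sorted): `sc_del_time_zero`, `m_0 = 0`.
* a switch at time `≥ len`: then the LAST switch is at time `len`: `sc_del_time_end`; `m = tot` (`sc_coeff_length`) is an integer.
* zero gap at `i`: `G_i + x r^G_i ∈ ℤ` (`e34_gap_int`), `r^G_i ∈ ℤ`, `|r^G_i| ≤ 2`, so `r^G_i = 0`; `sc_del_zero_gap` gives a schedule with
  `n` switches, independent by `Hard`; `lat_primRel_gap_entry_ne`.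

Everything is PROVED.
-/

set_option autoImplicit false

namespace Claimed.Agent.R282

variable {n : ℕ}

section Tools

theorem e34_int_small (x : ℝ) (h0 : 0 < x) (h1 : x < 1 / 2) (a z : ℤ) (ha : |a| ≤ 2)
    (h : x * a = z) : a = 0 := by
  have ha' : |(a : ℝ)| ≤ 2 := by exact_mod_cast ha
  have hz : |(z : ℝ)| < 1 := by
    rw [← h, abs_mul, abs_of_pos h0]
    nlinarith [abs_nonneg (a : ℝ)]
  have hz0 : z = 0 := by
    have : |z| < 1 := by exact_mod_cast hz
    exact Int.abs_lt_one_iff.1 this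
  rw [hz0] at h
  have : (a : ℝ) = 0 := by
    have h2 : x * (a : ℝ) = 0 := by rw [h]; simp
    rcases mul_eq_zero.1 h2 with h' | h'
    · linarith
    · exact h'
  exact_mod_cast this

/-- split `r` along a splitting of `l` -/
theorem e34_split_r (r : List ℤ) (l₁ l₂ : List (ℝ × RootD n)) (p : ℝ × RootD n)
    (h : r.length = (l₁ ++ p :: l₂).length) :
    ∃ r₁ a r₂, r = r₁ ++ a :: r₂ ∧ r₁.length = l₁.length :=
  e34_split_one r l₁.length (by rw [h]; simp)

/-- the integrality condition at one switch (`sc_coeffs_append`, `List.forall₂_drop_append` or induction on `l₁`) -/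
theorem e34_int_at (lam xi : Vec n) (θ : Shape n) (x : ℝ) (w0 : WD n)
    (l₁ l₂ : List (ℝ × RootD n)) (p : ℝ × RootD n) (r₁ r₂ : List ℤ) (a : ℤ)
    (hlen : r₁.length = l₁.length)
    (W : PreAug lam θ xi x w0 (l₁ ++ p :: l₂) (r₁ ++ a :: r₂)) :
    ∃ z : ℤ, (runSw θ ⟨w0.act, lam⟩ l₁).coeff θ p.1 p.2 + x * a = z := by
  have h := W.int
  rw [sc_coeffs_append] at h
  have h2 := List.forall₂_drop_append _ r₁ (a :: r₂) h
  rw [hlen, ← sc_coeffs_length θ ⟨w0.act, lam⟩ l₁, List.drop_left] at h2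
  simp only [swCoeffs] at h2
  exact (List.forall₂_cons.1 h2).1

theorem e34_getD_mid (r₁ r₂ : List ℤ) (a : ℤ) (k : ℕ) (h : r₁.length = k) :
    (r₁ ++ a :: r₂).getD k 0 = a := by
  subst h
  simp

end Tools

theorem e34_total_pos (lam xi : Vec n) (θ : Shape n) (L : Lbl lam θ xi) (H : Hard lam θ xi)
    (x : ℝ) (h0 : 0 < x) (h1 : x < 1 / 2) (w0 : WD n) (l : List (ℝ × RootD n)) (r : List ℤ)
    (W : PreAug lam θ xi x w0 l r) (hs : TSorted l) :
    ∀ a ∈ swTotals θ ⟨w0.act, lam⟩ l, 0 < a := by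
  intro a ha
  have hv := ((sc_valid_iff θ _ l).1 W.valid).2 a ha
  rcases hv.lt_or_eq with h | h
  · exact h
  exfalso
  obtain ⟨l₁, p, l₂, rfl, hap⟩ := e34_mem_totals θ _ l a ha
  obtain ⟨r₁, b, r₂, rfl, hr₁⟩ := e34_split_r r l₁ l₂ p W.rel.1
  obtain ⟨t, β⟩ := p
  obtain ⟨hs2, hc0, -⟩ := sc_del_zero_total lam xi θ L.dom w0 l₁ l₂ t β (W.sched hs)
    (by rw [← hap, ← h])
  obtain ⟨z, hz⟩ := e34_int_at lam xi θ x w0 l₁ l₂ (t, β) r₁ r₂ b hr₁ W
  simp only [] at hz
  rw [hc0, zero_add] at hz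
  have hb : b = 0 := e34_int_small x h0 h1 b z
    (e34_rel_bound _ _ W.len W.gen W.rel b (by simp)) hz
  obtain ⟨P, hP⟩ := H w0 (l₁ ++ l₂) hs2 (by
    have := W.len
    simp only [List.length_append, List.length_cons] at this ⊢
    omega)
  have hne := lat_primRel_entry_ne l₁ l₂ (t, β) W.rel hP.indep
  rw [e34_getD_mid r₁ r₂ b _ hr₁] at hne
  exact hne hb

theorem e34_time_pos (lam xi : Vec n) (θ : Shape n) (L : Lbl lam θ xi) (H : Hard lam θ xi)
    (x : ℝ) (h0 : 0 < x) (h1 : x < 1 / 2) (w0 : WD n) (l : List (ℝ × RootD n)) (r : List ℤ)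
    (W : PreAug lam θ xi x w0 l r) (hs : TSorted l) : ∀ p ∈ l, 0 < p.1 := by
  intro p hp
  by_contra hcon
  have hp0 : p.1 ≤ 0 := not_lt.1 hcon
  cases l with
  | nil => simp at hp
  | cons q l' =>
    have hq0 : q.1 = 0 := by
      have h1 : 0 ≤ q.1 := (W.times_mem q (by simp)).1
      have h2 : q.1 ≤ p.1 := by
        rcases List.mem_cons.1 hp with rfl | hp'
        · exact le_rfl
        · exact (List.pairwise_cons.1 hs).1 p hp'
      linarith
    obtain ⟨t, β⟩ := q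
    simp only [] at hq0
    subst hq0
    obtain ⟨r₁, b, r₂, rfl, hr₁⟩ := e34_split_r r [] l' (0, β) W.rel.1
    have hr₁' : r₁ = [] := List.length_eq_zero_iff.1 (by simpa using hr₁)
    subst hr₁'
    obtain ⟨w0', -, hs2, hc0, -⟩ := sc_del_time_zero lam xi θ w0 l' β (W.sched hs)
    obtain ⟨z, hz⟩ := e34_int_at lam xi θ x w0 [] l' (0, β) [] r₂ b rfl W
    simp only [runSw] at hz
    rw [hc0, zero_add] at hz
    have hb : b = 0 := e34_int_small x h0 h1 b z
      (e34_rel_bound _ _ W.len W.gen W.rel b (by simp)) hz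
    obtain ⟨P, hP⟩ := H w0' l' hs2 (by
      have := W.len
      simp only [List.length_cons] at this
      omega)
    have hne := lat_primRel_entry_ne [] l' (0, β) W.rel hP.indep
    simp at hne
    exact hne hb

theorem e34_total_int (lam : Vec n) (θ : Shape n) (wm : IsWtD θ.sum) (w0 : WD n)
    (l : List (ℝ × RootD n)) (β : RootD n) :
    ∃ z : ℤ, (runSw θ ⟨w0.act, lam⟩ l).total θ β = z := by
  obtain ⟨w, hw⟩ := sc_isFrame_runSw θ ⟨w0.act, lam⟩ (sc_isFrame_act w0) l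
  obtain ⟨z, hz⟩ := sc_wt_dot_root (w.act θ.sum) (sc_isWtD_act w _ wm) β
  refine ⟨-z, ?_⟩
  unfold SwState.total
  rw [hw, sc_dot_comm, hz]
  push_cast
  ring

theorem e34_time_lt (lam xi : Vec n) (θ : Shape n) (L : Lbl lam θ xi) (H : Hard lam θ xi)
    (x : ℝ) (h0 : 0 < x) (h1 : x < 1 / 2) (w0 : WD n) (l : List (ℝ × RootD n)) (r : List ℤ)
    (W : PreAug lam θ xi x w0 l r) (hs : TSorted l) : ∀ p ∈ l, p.1 < (θ.length : ℝ) := by
  intro p hp
  by_contra hcon
  have hp0 : (θ.length : ℝ) ≤ p.1 := not_lt.1 hcon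
  rcases List.eq_nil_or_concat l with rfl | ⟨l', q, hlq⟩
  · simp at hp
  · rw [List.concat_eq_append] at hlq
    subst hlq
    have hq0 : q.1 = (θ.length : ℝ) := by
      have h1 : q.1 ≤ (θ.length : ℝ) := (W.times_mem q (by simp)).2
      have h2 : p.1 ≤ q.1 := by
        rcases List.mem_append.1 hp with hp' | hp'
        · exact (List.pairwise_append.1 hs).2.2 p hp' q (by simp)
        · rw [List.mem_singleton.1 hp']
      linarith
    obtain ⟨t, β⟩ := q
    simp only [] at hq0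
    subst hq0
    obtain ⟨r₁, b, r₂, rfl, hr₁⟩ := e34_split_r r l' [] ((θ.length : ℝ), β) W.rel.1
    have hs2 := sc_del_time_end lam xi θ w0 l' β (W.sched hs)
    obtain ⟨z, hz⟩ := e34_int_at lam xi θ x w0 l' [] ((θ.length : ℝ), β) r₁ r₂ b hr₁ W
    simp only [] at hz
    rw [sc_coeff_length] at hz
    obtain ⟨z', hz'⟩ := e34_total_int lam θ L.wm w0 l' β
    rw [hz'] at hz
    have hb : b = 0 := e34_int_small x h0 h1 b (z - z')
      (e34_rel_bound _ _ W.len W.gen W.rel b (by simp)) (by push_cast; linarith)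
    obtain ⟨P, hP⟩ := H w0 l' hs2 (by
      have := W.len
      simp only [List.length_append, List.length_cons, List.length_nil] at this
      omega)
    have hne := lat_primRel_entry_ne l' [] ((θ.length : ℝ), β) W.rel
      (by rw [List.append_nil]; exact hP.indep)
    rw [e34_getD_mid r₁ r₂ b _ hr₁] at hne
    exact hne hb

theorem e34_int_list (x : ℝ) (m : List ℝ) (r : List ℤ)
    (h : List.Forall₂ (fun (m : ℝ) (a : ℤ) => ∃ z : ℤ, m + x * a = z) m r) :
    ∃ Z : List ℤ, shiftCo x m r = Z.map (fun z : ℤ => (z : ℝ)) := by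
  induction h with
  | nil => exact ⟨[], rfl⟩
  | cons h _ ih =>
    obtain ⟨z, hz⟩ := h
    obtain ⟨Z, hZ⟩ := ih
    exact ⟨z :: Z, by rw [e34_shiftCo_cons, hz, hZ, List.map_cons]⟩

theorem e34_dot_relSum_int (c : List ℤ) (l : List (ℝ × RootD n)) (β : RootD n) :
    ∃ z : ℤ, dot (relSum (c.map (fun z : ℤ => (z : ℝ))) l) β.vec = z := by
  induction c generalizing l with
  | nil => exact ⟨0, by simp [relSum, sc_dot_zero_left]⟩
  | cons a c ih =>
    cases l with
    | nil => exact ⟨0, by simp [relSum, sc_dot_zero_left]⟩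
    | cons p l =>
      obtain ⟨z, hz⟩ := ih l
      obtain ⟨b, hb⟩ := lat_dot_root_int p.2 β
      refine ⟨a * b + z, ?_⟩
      rw [List.map_cons, sc_relSum_cons, sc_dot_add_left, sc_dot_smul_left, hz, hb]
      push_cast
      ring

/-- `G_i + x r^G_i ∈ ℤ`  (`sc_gap_formula`; `m_j = z_j - x r_j`; `λ·β ∈ ℤ` by `sc_wt_dot_root`, `β_j·β_i ∈ ℤ` by `lat_dot_root_int`;
suggestion: choose `zs : List ℤ` with `swCoeffs = shiftCo (-x) (zs.map cast) r` entrywise, then
`G_i + x r^G_i = λ·β_i - (relSum (zs.take i) l)·β_i - zs_i`, and `lat_spanZ_int`/`lat_dot_relSum` give integrality) -/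
theorem e34_gap_int (lam xi : Vec n) (θ : Shape n) (wl : IsWtD lam) (x : ℝ) (w0 : WD n)
    (l : List (ℝ × RootD n)) (r : List ℤ) (W : PreAug lam θ xi x w0 l r) (i : ℕ)
    (hi : i < l.length) :
    ∃ z : ℤ, (stAt θ ⟨w0.act, lam⟩ l i).gap θ l[i].1 l[i].2
      + x * gapLin (r.map (fun z => (z : ℝ))) l i l[i].2 = z := by
  rw [sd_cast_list]
  obtain ⟨Z, hZ⟩ := e34_int_list x _ r W.int
  have hm : (swCoeffs θ ⟨w0.act, lam⟩ l).length = r.length := by
    rw [sc_coeffs_length, W.rel.1]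
  have htake : (shiftCo x (swCoeffs θ ⟨w0.act, lam⟩ l) r).take i
      = shiftCo x ((swCoeffs θ ⟨w0.act, lam⟩ l).take i) (r.take i) := by
    unfold shiftCo
    exact List.take_zipWith
  have h1 := e34_relSum_shift_aux x ((swCoeffs θ ⟨w0.act, lam⟩ l).take i) (r.take i) l
    (by rw [List.length_take, List.length_take, hm])
  rw [← htake, hZ, ← List.map_take] at h1
  have h2 := e34_shiftCo_getD x (swCoeffs θ ⟨w0.act, lam⟩ l) r hm i
  rw [hZ, sd_getD_cast] at h2
  obtain ⟨z1, hz1⟩ := sc_wt_dot_root lam wl l[i].2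
  obtain ⟨z2, hz2⟩ := e34_dot_relSum_int (Z.take i) l l[i].2
  refine ⟨z1 - z2 - Z.getD i 0, ?_⟩
  rw [sc_gap_formula θ _ l i hi]
  unfold gapLin
  rw [sd_getD_cast, ← List.map_take]
  rw [h1, sc_dot_add_left, sc_dot_smul_left] at hz2
  simp only [] at hz1 ⊢
  push_cast
  rw [← hz1, ← hz2, h2]
  ring

theorem e34_gap_pos (lam xi : Vec n) (θ : Shape n) (L : Lbl lam θ xi) (H : Hard lam θ xi)
    (x : ℝ) (h0 : 0 < x) (h1 : x < 1 / 2) (w0 : WD n) (l : List (ℝ × RootD n)) (r : List ℤ)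
    (W : PreAug lam θ xi x w0 l r) (hs : TSorted l) :
    ∀ g ∈ swGaps θ ⟨w0.act, lam⟩ l, 0 < g := by
  intro g hg
  have hv := ((sc_valid_iff θ _ l).1 W.valid).1 g hg
  rcases hv.lt_or_eq with h | h
  · exact h
  exfalso
  obtain ⟨l₁, p, l₂, rfl, hgp⟩ := e34_mem_gaps θ _ l g hg
  obtain ⟨t, β⟩ := p
  have hg0 : (runSw θ ⟨w0.act, lam⟩ l₁).gap θ t β = 0 := by rw [← hgp, ← h]
  obtain ⟨hs2, -⟩ := sc_del_zero_gap lam xi θ w0 l₁ l₂ t β (W.sched hs) hg0
  obtain ⟨P, hP⟩ := H w0 _ hs2 (by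
    have := W.len
    simp only [List.length_append, List.length_cons, mapSw, List.length_map] at this ⊢
    omega)
  have hne := lat_primRel_gap_entry_ne l₁ l₂ t β W.rel hP.indep
  have hi : l₁.length < (l₁ ++ (t, β) :: l₂).length := by simp
  obtain ⟨z, hz⟩ := e34_gap_int lam xi θ L.wl x w0 _ r W l₁.length hi
  obtain ⟨g', hg', hb⟩ := e34_relG_bound _ r W.len W.gen W.rel l₁.length hi
  rw [← e34_gapLin_eq _ _ _ hi, hg'] at hne
  have hst : stAt θ ⟨w0.act, lam⟩ (l₁ ++ (t, β) :: l₂) l₁.length = runSw θ ⟨w0.act, lam⟩ l₁ := by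
    unfold stAt; rw [List.take_left]
  have hel : (l₁ ++ (t, β) :: l₂)[l₁.length] = (t, β) := by simp
  rw [hg', hst, hel] at hz
  simp only [] at hz
  rw [hg0, zero_add] at hz
  have := e34_int_small x h0 h1 g' z hb hz
  rw [this] at hne
  simp at hne

/-- STRICTNESS -/
theorem e34_strict (lam xi : Vec n) (θ : Shape n) (L : Lbl lam θ xi) (H : Hard lam θ xi)
    (x : ℝ) (h0 : 0 < x) (h1 : x < 1 / 2) (w0 : WD n) (l : List (ℝ × RootD n)) (r : List ℤ)
    (W : PreAug lam θ xi x w0 l r) (hs : TSorted l) : SwStrict θ ⟨w0.act, lam⟩ l :=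
  ⟨fun p hp => ⟨e34_time_pos lam xi θ L H x h0 h1 w0 l r W hs p hp,
      e34_time_lt lam xi θ L H x h0 h1 w0 l r W hs p hp⟩,
    e34_gap_pos lam xi θ L H x h0 h1 w0 l r W hs,
    e34_total_pos lam xi θ L H x h0 h1 w0 l r W hs⟩

end Claimed.Agent.R282
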