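import Claimed.Agent.R282.S34.E.Sort
import Claimed.Agent.R282.S34.E.Pert
import Claimed.Agent.R282.S34.E.Strict

/-!
# Row 282, package E: (E2) continuation of an augmented schedule (Prop 3.6), assembly

See the plan in `E/Defs.lean`.  `e34_improve` = one pair move at an adjacent inversion of the candidate times;
`e34_aug_open` = lexicographically minimal witness + retiming.
-/

set_option autoImplicit false

namespace Claimed.Agent.R282

variable {n : ℕ}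

/-- the two heads of the candidate equation -/
theorem e34_co_heads (θ : Shape n) (S : SwState n) (s a b : ℝ) (T₂ : List ℝ)
    (p₁ p₂ : ℝ × RootD n) (l₂ : List (ℝ × RootD n)) (a₁ a₂ : ℤ) (r₂ : List ℤ)
    (h : swCoeffs θ S (retime (a :: b :: T₂) (p₁ :: p₂ :: l₂))
      = shiftCo s (swCoeffs θ S (p₁ :: p₂ :: l₂)) (a₁ :: a₂ :: r₂)) :
    S.coeff θ a p₁.2 = S.coeff θ p₁.1 p₁.2 + s * a₁ ∧
      (S.step θ a p₁.2).coeff θ b p₂.2 = (S.step θ p₁.1 p₁.2).coeff θ p₂.1 p₂.2 + s * a₂ := by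
  simp only [retime, List.zipWith_cons_cons, swCoeffs, shiftCo, List.cons.injEq] at h
  exact ⟨h.1, h.2.1⟩

theorem e34_co_head (θ : Shape n) (S : SwState n) (s a : ℝ) (T₂ : List ℝ)
    (p₁ : ℝ × RootD n) (l₂ : List (ℝ × RootD n)) (a₁ : ℤ) (r₂ : List ℤ)
    (h : swCoeffs θ S (retime (a :: T₂) (p₁ :: l₂))
      = shiftCo s (swCoeffs θ S (p₁ :: l₂)) (a₁ :: r₂)) :
    S.coeff θ a p₁.2 = S.coeff θ p₁.1 p₁.2 + s * a₁ := by
  simp only [retime, List.zipWith_cons_cons, swCoeffs, shiftCo, List.cons.injEq] at h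
  exact h.1

/-- ONE IMPROVEMENT.  An adjacent inversion `b < a` of the candidate times of a witness: there is another
witness with the same times all of whose candidate lists agree with `T₁` and continue with `a' < a`. -/
theorem e34_improve (lam xi : Vec n) (θ : Shape n) (L : Lbl lam θ xi) (G : GenericShape θ)
    (H : Hard lam θ xi) (x : ℝ) (h0 : 0 < x) (h1 : x < 1 / 2) (ε s : ℝ) (w0 : WD n)
    (l : List (ℝ × RootD n)) (r : List ℤ) (W : PreAug lam θ xi x w0 l r) (hs : TSorted l)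
    (hsep : ∀ a ∈ l.map Prod.fst, ∀ b ∈ l.map Prod.fst, a < b → a + 2 * ε ≤ b)
    (T : List ℝ) (hT : Good θ ⟨w0.act, lam⟩ l r s ε T) (T₁ : List ℝ) (a b : ℝ) (T₂ : List ℝ)
    (hsplit : T = T₁ ++ a :: b :: T₂) (hba : b < a) :
    ∃ l' r', PreAug lam θ xi x w0 l' r' ∧ l'.map Prod.fst = l.map Prod.fst ∧
      ∀ T', Good θ ⟨w0.act, lam⟩ l' r' s ε T' →
        ∃ (a' : ℝ) (T₂' : List ℝ), T' = T₁ ++ a' :: T₂' ∧ a' < a := by
  subst hsplit
  have hlenT := hT.len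
  have hrl : r.length = l.length := W.rel.1
  have hi : T₁.length + 1 < l.length := by
    rw [← hlenT]; simp only [List.length_append, List.length_cons]; omega
  obtain ⟨l₁, p₁, p₂, l₂, rfl, hl₁⟩ := e34_split_two l T₁.length hi
  obtain ⟨r₁, a₁, a₂, r₂, rfl, hr₁⟩ := e34_split_two r T₁.length (by rw [hrl]; exact hi)
  have hTl : T₁.length = l₁.length := hl₁.symm
  have hrl₁ : r₁.length = l₁.length := hr₁.trans hl₁.symm
  -- nearness
  have hnear := List.forall₂_drop_append _ l₁ (p₁ :: p₂ :: l₂) hT.near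
  rw [← hTl, List.drop_left] at hnear
  obtain ⟨hna, hnear'⟩ := List.forall₂_cons.1 hnear
  obtain ⟨hnb, -⟩ := List.forall₂_cons.1 hnear'
  -- the two switches are simultaneous
  have hp12 : p₁.1 ≤ p₂.1 :=
    (List.pairwise_cons.1 (List.pairwise_append.1 hs).2.1).1 p₂ (by simp)
  have hteq : p₁.1 = p₂.1 := by
    by_contra hne
    have hlt := lt_of_le_of_ne hp12 hne
    have := hsep p₁.1 (by simp) p₂.1 (by simp) hlt
    rw [abs_lt] at hna hnb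
    linarith [hna.2, hnb.1]
  obtain ⟨t, β₁⟩ := p₁
  obtain ⟨t', β₂⟩ := p₂
  simp only [] at hteq
  subst hteq
  have hF₁ : IsFrame (runSw θ ⟨w0.act, lam⟩ l₁).frame :=
    sc_isFrame_runSw θ _ (sc_isFrame_act w0) l₁
  -- strictness of the old witness
  have hst := e34_strict lam xi θ L H x h0 h1 w0 _ _ W hs
  have hg₁ : 0 < (runSw θ ⟨w0.act, lam⟩ l₁).gap θ t β₁ :=
    hst.2.1 _ (e34_gaps_mem θ _ l₁ ((t, β₂) :: l₂) (t, β₁))
  have ht₁ : 0 < (runSw θ ⟨w0.act, lam⟩ l₁).total θ β₁ :=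
    hst.2.2 _ (e34_totals_mem θ _ l₁ ((t, β₂) :: l₂) (t, β₁))
  have hS₂ : runSw θ ⟨w0.act, lam⟩ (l₁ ++ [(t, β₁)])
      = (runSw θ ⟨w0.act, lam⟩ l₁).step θ t β₁ := by
    rw [sc_runSw_append]; rfl
  have hg₂ : 0 < ((runSw θ ⟨w0.act, lam⟩ l₁).step θ t β₁).gap θ t β₂ := by
    have hmem := e34_gaps_mem θ ⟨w0.act, lam⟩ (l₁ ++ [(t, β₁)]) l₂ (t, β₂)
    rw [List.append_assoc, List.singleton_append, hS₂] at hmem
    exact hst.2.1 _ hmem
  have ht₂ : 0 < ((runSw θ ⟨w0.act, lam⟩ l₁).step θ t β₁).total θ β₂ := by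
    have hmem := e34_totals_mem θ ⟨w0.act, lam⟩ (l₁ ++ [(t, β₁)]) l₂ (t, β₂)
    rw [List.append_assoc, List.singleton_append, hS₂] at hmem
    exact hst.2.2 _ hmem
  have htot₁ : ∀ c ∈ swTotals θ ⟨w0.act, lam⟩ l₁, 0 < c := by
    intro c hc
    apply hst.2.2 c
    rw [sc_totals_append]
    exact List.mem_append_left _ hc
  -- the candidate equations of the old witness
  obtain ⟨hco₁, hco₂⟩ := e34_co_split θ ⟨w0.act, lam⟩ s T₁ (a :: b :: T₂) l₁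
    ((t, β₁) :: (t, β₂) :: l₂) r₁ (a₁ :: a₂ :: r₂) hTl hrl₁ hT.co
  obtain ⟨hca, hcb⟩ := e34_co_heads θ _ s a b T₂ (t, β₁) (t, β₂) l₂ a₁ a₂ r₂ hco₂
  simp only [] at hca hcb
  have ha : a ∈ Set.Icc (0 : ℝ) (θ.length : ℝ) := hT.mem a (by simp)
  have hb : b ∈ Set.Icc (0 : ℝ) (θ.length : ℝ) := hT.mem b (by simp)
  have hmem₁ : ∀ u ∈ T₁, 0 ≤ u ∧ u ≤ (θ.length : ℝ) := fun u hu => hT.mem u (by simp [hu])
  -- the level function of the second switch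
  have hmono₂ := sc_coeff_strictMono θ G ((runSw θ ⟨w0.act, lam⟩ l₁).step θ a β₁)
    (sc_isFrame_refl _ hF₁ β₁) β₂ ht₂
  -- what every candidate list of a modified witness looks like
  have key : ∀ (q₁ q₂ : ℝ × RootD n) (c₁ c₂ : ℤ) (T' : List ℝ),
      Good θ ⟨w0.act, lam⟩ (l₁ ++ q₁ :: q₂ :: l₂) (r₁ ++ c₁ :: c₂ :: r₂) s ε T' →
      ∃ (a' : ℝ) (T₂' : List ℝ), T' = T₁ ++ a' :: T₂' ∧ a' ∈ Set.Icc (0 : ℝ) (θ.length : ℝ) ∧
        (runSw θ ⟨w0.act, lam⟩ l₁).coeff θ a' q₁.2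
          = (runSw θ ⟨w0.act, lam⟩ l₁).coeff θ q₁.1 q₁.2 + s * c₁ := by
    intro q₁ q₂ c₁ c₂ T' hT'
    obtain ⟨T₁', a', T₂', rfl, hT₁'⟩ := e34_split_one T' T₁.length (by
      rw [hT'.len]; simp only [List.length_append, List.length_cons]; omega)
    obtain ⟨hco₁', hco₂'⟩ := e34_co_split θ ⟨w0.act, lam⟩ s T₁' (a' :: T₂') l₁
      (q₁ :: q₂ :: l₂) r₁ (c₁ :: c₂ :: r₂) (hT₁'.trans hTl) hrl₁ hT'.co
    have heq : T₁' = T₁ := e34_cand_unique θ G l₁ ⟨w0.act, lam⟩ (sc_isFrame_act w0) htot₁ T₁' T₁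
      (hT₁'.trans hTl) hTl (fun u hu => hT'.mem u (by simp [hu])) hmem₁ (by rw [hco₁', hco₁])
    subst heq
    exact ⟨a', T₂', rfl, hT'.mem a' (by simp),
      e34_co_head θ _ s a' T₂' q₁ (q₂ :: l₂) c₁ (c₂ :: r₂) hco₂'⟩
  obtain ⟨k, hk, -, -⟩ := sc_vec_dot_vec_int β₁ β₂
  rcases e34_diamond θ _ t β₁ β₂ hg₁ ht₁ hg₂ ht₂ with hval | hval
  · -- route A
    have W' := e34_moveA lam xi θ x w0 l₁ l₂ t β₁ β₂ r₁ r₂ a₁ a₂ k hrl₁ hk hval W
    have hs' : TSorted (l₁ ++ (t, β₂) :: (t, reflRoot β₂ β₁) :: l₂) := by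
      rw [e34_tsorted_iff] at hs ⊢
      simpa using hs
    refine ⟨_, _, W', by simp, fun T' hT' => ?_⟩
    obtain ⟨a', T₂', rfl, ha', hca'⟩ := key _ _ _ _ T' hT'
    refine ⟨a', T₂', rfl, ?_⟩
    simp only [] at hca'
    have hst' := e34_strict lam xi θ L H x h0 h1 w0 _ _ W' hs'
    have ht₁' : 0 < (runSw θ ⟨w0.act, lam⟩ l₁).total θ β₂ :=
      hst'.2.2 _ (e34_totals_mem θ _ l₁ ((t, reflRoot β₂ β₁) :: l₂) (t, β₂))
    have hmono := sc_coeff_strictMono θ G (runSw θ ⟨w0.act, lam⟩ l₁) hF₁ β₂ ht₁'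
    have e1 := (e34_pairA_lev θ (runSw θ ⟨w0.act, lam⟩ l₁) a a a β₁ β₂).1
    have e2 := (e34_pairA_lev θ (runSw θ ⟨w0.act, lam⟩ l₁) t t t β₁ β₂).1
    have e3 := hmono₂ hb ha hba
    simp only [] at e3
    rw [hk] at e1 e2
    refine (hmono.lt_iff_lt ha' ha).1 ?_
    rw [hca', e1, e2, hca]
    rw [hcb] at e3
    push_cast
    nlinarith [e3]
  · -- route B
    have W' := e34_moveB lam xi θ x w0 l₁ l₂ t β₁ β₂ r₁ r₂ a₁ a₂ k hrl₁ hk hval W
    refine ⟨_, _, W', by simp, fun T' hT' => ?_⟩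
    obtain ⟨a', T₂', rfl, ha', hca'⟩ := key _ _ _ _ T' hT'
    refine ⟨a', T₂', rfl, ?_⟩
    simp only [] at hca'
    have e1 := (e34_pairB_lev θ (runSw θ ⟨w0.act, lam⟩ l₁) a a a' β₁ β₂).1
    have e2 := (e34_pairB_lev θ (runSw θ ⟨w0.act, lam⟩ l₁) t t t β₁ β₂).1
    rw [e1, e2] at hca'
    have : a' = b := by
      apply hmono₂.injOn ha' hb
      simp only []
      rw [hca', hcb]
      push_cast
      ring
    rw [this]
    exact hba

/-- (E2) -/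
theorem e34_aug_open (lam xi : Vec n) (θ : Shape n) (L : Lbl lam θ xi) (G : GenericShape θ)
    (H : Hard lam θ xi) (x : ℝ) (h0 : 0 < x) (h1 : x < 1 / 2) (hx : AugAt lam θ xi x) :
    ∃ x' : ℝ, 0 ≤ x' ∧ x' < x ∧ AugAt lam θ xi x' := by
  classical
  obtain ⟨w0, l, r, W, hs⟩ := (e34_augAt_iff lam xi θ x).1 hx
  set τ := l.map Prod.fst with hτ
  set A : Set (WD n × List (ℝ × RootD n) × List ℤ) :=
    {w | PreAug lam θ xi x w.1 w.2.1 w.2.2 ∧ w.2.1.map Prod.fst = τ} with hA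
  have hfin : A.Finite := e34_finite_wit lam xi θ x τ
  have hsortA : ∀ w ∈ A, TSorted w.2.1 := by
    intro w hw
    rw [e34_tsorted_iff, hw.2, hτ, ← e34_tsorted_iff]
    exact hs
  obtain ⟨ε, hε, hsep⟩ := e34_sep τ
  have hgood : ∀ w ∈ A, ∃ s₁ > 0, ∀ s : ℝ, 0 < s → s ≤ s₁ →
      ∃ T, Good θ ⟨w.1.act, lam⟩ w.2.1 w.2.2 s ε T := by
    intro w hw
    have hst := e34_strict lam xi θ L H x h0 h1 w.1 w.2.1 w.2.2 hw.1 (hsortA w hw)
    refine e34_good_exists θ G ⟨w.1.act, lam⟩ (sc_isFrame_act _) w.2.1 w.2.2 hst.2.2 ?_ ?_ ε hε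
    · rw [List.forall₂_iff_get]
      refine ⟨hw.1.rel.1.symm, fun i h₁ _ => Or.inl (hst.1 _ (List.get_mem _ _))⟩
    · intro i hi
      left
      rw [← sc_gaps_get θ _ _ i hi]
      have hi' : i < (swGaps θ ⟨w.1.act, lam⟩ w.2.1).length := by rw [sc_gaps_length]; exact hi
      rw [List.getD_eq_getElem _ _ hi']
      exact hst.2.1 _ (List.getElem_mem hi')
  obtain ⟨s₁, hs₁, hall⟩ := e34_unif A hfin _ hgood
  set s := min s₁ (x / 2) with hsdef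
  have hspos : 0 < s := lt_min hs₁ (by linarith)
  have hsle : s ≤ s₁ := min_le_left _ _
  have hsx : s ≤ x / 2 := min_le_right _ _
  have hex : ∀ w, ∃ T, w ∈ A → Good θ ⟨w.1.act, lam⟩ w.2.1 w.2.2 s ε T := by
    intro w
    by_cases hw : w ∈ A
    · obtain ⟨T, hT⟩ := hall s hspos hsle w hw
      exact ⟨T, fun _ => hT⟩
    · exact ⟨[], fun h => absurd h hw⟩
  choose T hT using hex
  obtain ⟨w, hwA, hsorted⟩ := e34_lex_min A hfin ⟨(w0, l, r), W, rfl⟩ T (by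
    intro w hw T₁ a b T₂ hsplit hba
    obtain ⟨l', r', W', ht', himp⟩ := e34_improve lam xi θ L G H x h0 h1 ε s w.1 w.2.1 w.2.2 hw.1
      (hsortA w hw) (by rw [hw.2]; exact hsep) (T w) (hT w hw) T₁ a b T₂ hsplit hba
    have hw' : (w.1, l', r') ∈ A := ⟨W', by rw [ht']; exact hw.2⟩
    exact ⟨(w.1, l', r'), hw', himp _ (hT _ hw')⟩)
  refine ⟨x - s, by linarith, by linarith, (e34_augAt_iff lam xi θ (x - s)).2
    ⟨w.1, retime (T w) w.2.1, w.2.2, e34_retime_preAug lam xi θ x s ε w.1 w.2.1 w.2.2 (T w) hwA.1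
      (hT w hwA), ?_⟩⟩
  rw [e34_tsorted_iff, e34_retime_fst _ _ (hT w hwA).len]
  exact hsorted

end Claimed.Agent.R282
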