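import Claimed.Agent.R282.S34.Lat.Vel
import Claimed.Agent.R282.S34.D.Top
import Claimed.Agent.R282.S34.LinkDefs

/-!
# Row 282, package E (Prop 3.6 + perturbation lemma): definitions and master plan

Architect helper171.  All names carry the prefix `e34_` (definitions: `PreAug`, `retime`, `shiftCo`,
`Good`, `TimeCond`).  Consumed: `Sched/*` (`sc_`), `S34/Lat/*` (`lat_`), `S34/D/Top` (`sd_`), `S34/Defs`, `S34/LinkDefs`.

WARNING (elaboration): for `r : List ℤ` the term `r.map (fun z => (z : ℝ))` (in `SwGenQ`, `IsPrimRel`, `LinkBase` and in all statements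
of this package) is elaborated as `List.map (fun z : ℝ => z) (do let a ← r; pure (a : ℝ))`.  Normalise it with
`sd_cast_list` (`S34/D/Top.lean`): `… = r.map (fun z : ℤ => (z : ℝ))`; see also `sd_primRel_def`, `sd_genQ_def`, `sd_getD_cast`.

## What is proved
* (E1 `s34_aug_closed` is proved in package D: `sd_aug_closed`.)
* `e34_aug_open`    (E2, `E/Open.lean`)     = `s34_aug_open`
* `e34_link_of_base` (PL, `E/LinkPf.lean`)  = `s34_link_of_base`

## The proof (DEVIATES from the paper: NO potential `L`, NO Bruhat order, NO germs)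

A witness at the parameter `x` is `(w0, l, r)` with `PreAug lam θ xi x w0 l r` and sorted times.
Coefficients `m_i`, level functions `lev_i(t) = (stAt .. i).coeff θ t β_i` (they depend only on `w0` and
on the ROOTS), gaps `G_i = λ·β_i - ∑_{j<i} m_j β_j·β_i - m_i`.

(R) RETIMING (`e34_retime_preAug`).  If `T` is ANY list of times in `[0,len]` (sorted or not) with
  `lev_i(T_i) = m_i + s r_i` and all new gaps `G_i + s r^G_i ≥ 0`, then `(w0, retime T l, r)` is a
  `PreAug` at `x - s`: the final state is unchanged because `∑ r_i β_i = 0`.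
(G) EXISTENCE (`e34_good_exists`).  totals `> 0`, each switch interior (or at `0` with `r_i > 0`, or at
  `len` with `r_i < 0`), each gap `> 0` (or `= 0` with `r^G_i ≥ 0`): for every `ε > 0` and all small
  `s > 0` such a `T` exists with `|T_i - t_i| < ε`.
(P) PAIR MOVES (`E/Pair.lean`, `E/Replace.lean`).  For ANY two consecutive switches `(t,β₁), (t,β₂)`,
  `k = β₁·β₂`:
    A : `(t,β₂), (t, s_{β₂} β₁)`, coefficients `(m₂ + k m₁, m₁)`,
    B : `(t, s_{β₁} β₂), (t,β₁)`, coefficients `(m₂, m₁ + k m₂)`
  have the same final state; the LEVEL FUNCTIONS, the coefficients, `r` and integral coefficient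
  vectors are all transformed by the same unimodular matrix, so `PreAug` is preserved as soon as the
  four new weak signs hold.  With strict old signs `g₁, g₂, τ₁, τ₂ > 0`:
    k = 0 : A (= B = commutation);  k = 1 : A if `g₁ ≥ g₂`, else B;  k = -1 : A if `τ₂ ≥ τ₁`, else B;
    k = ±2 impossible.  (new gaps / totals  A: `g₂, g₁ - k g₂` / `τ₂ + k τ₁, τ₁`;  B: `g₂ - k g₁, g₁` / `τ₂, τ₁ + k τ₂`.)
  If the candidate times of the old pair are inverted, `T₁ > T₂`, the first candidate time of the new
  pair is `< T₁`: B: it is `T₂`; A: `lev₁' = lev₂ + k lev₁`, so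
  `lev₁'(T₁) = lev₂(T₁) + k (m₁ + s r₁) > (m₂ + s r₂) + k (m₁ + s r₁) = lev₁'(T₁')`.
(S) STRICTNESS (`E/Strict.lean`).  `Hard`, `0 < x < 1/2`: every witness has interior times and strict
  gaps and totals (`|r_i| ≤ 2`, `|r^G_i| ≤ 2` from package B; deletions of `Sched/Simplify`).
(L) LEX-MINIMAL WITNESS (`e34_lex_min`).  The set of witnesses at `x` with a given time list is finite
  and closed under (P).  Fix `s` small for all of them, take the witness whose candidate-time list
  is lexicographically minimal: it is sorted.  (R) gives `AugAt (x - s)`.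
(PL) For a `LinkBase` only commutations are needed: retime FIRST (unsorted list!), then sort the
  retimed list by swaps of orthogonal switches at different times (again (P) + (L)).
-/

set_option autoImplicit false

namespace Claimed.Agent.R282

variable {n : ℕ}

/-- an augmented witness at the parameter `x`, WITHOUT the sortedness of the times -/
structure PreAug (lam : Vec n) (θ : Shape n) (xi : Vec n) (x : ℝ) (w0 : WD n)
    (l : List (ℝ × RootD n)) (r : List ℤ) : Prop where
  times_mem : ∀ p ∈ l, 0 ≤ p.1 ∧ p.1 ≤ (θ.length : ℝ)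
  valid : SwValid θ ⟨w0.act, lam⟩ l
  endpoint : ∃ w : WD n, (runSw θ ⟨w0.act, lam⟩ l).pos θ θ.length = w.act xi
  len : l.length = n + 1
  gen : SwGenQ l
  rel : IsPrimRel r l
  int : List.Forall₂ (fun (m : ℝ) (a : ℤ) => ∃ z : ℤ, m + x * a = z)
    (swCoeffs θ ⟨w0.act, lam⟩ l) r

/-- sortedness of the times -/
def TSorted (l : List (ℝ × RootD n)) : Prop := l.Pairwise (fun p q => p.1 ≤ q.1)

theorem e34_augAt_iff (lam xi : Vec n) (θ : Shape n) (x : ℝ) :
    AugAt lam θ xi x ↔ ∃ w0 l r, PreAug lam θ xi x w0 l r ∧ TSorted l := by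
  constructor
  · rintro ⟨w0, l, r, hs, hl, hg, hr, hi⟩
    exact ⟨w0, l, r, ⟨hs.times_mem, hs.valid, hs.endpoint, hl, hg, hr, hi⟩, hs.sorted⟩
  · rintro ⟨w0, l, r, h, hs⟩
    exact ⟨w0, l, r, ⟨h.times_mem, hs, h.valid, h.endpoint⟩, h.len, h.gen, h.rel, h.int⟩

theorem PreAug.sched {lam xi : Vec n} {θ : Shape n} {x : ℝ} {w0 : WD n}
    {l : List (ℝ × RootD n)} {r : List ℤ} (h : PreAug lam θ xi x w0 l r) (hs : TSorted l) :
    IsSchedule lam θ xi w0 l := ⟨h.times_mem, hs, h.valid, h.endpoint⟩

/-- replace the times of a list of switches -/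
def retime (T : List ℝ) (l : List (ℝ × RootD n)) : List (ℝ × RootD n) :=
  List.zipWith (fun t p => (t, p.2)) T l

/-- the coefficient vector `m + s r` -/
def shiftCo (s : ℝ) (m : List ℝ) (r : List ℤ) : List ℝ :=
  List.zipWith (fun a (b : ℤ) => a + s * b) m r

/-- `T` is a list of candidate times for the step `s`, `ε`-close to the old times, with weakly
positive new gaps -/
structure Good (θ : Shape n) (S : SwState n) (l : List (ℝ × RootD n)) (r : List ℤ) (s ε : ℝ)
    (T : List ℝ) : Prop where
  len : T.length = l.length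
  mem : ∀ t ∈ T, 0 ≤ t ∧ t ≤ (θ.length : ℝ)
  co : swCoeffs θ S (retime T l) = shiftCo s (swCoeffs θ S l) r
  near : List.Forall₂ (fun t (p : ℝ × RootD n) => |t - p.1| < ε) T l
  gap : ∀ g ∈ swGaps θ S (retime T l), 0 ≤ g

/-- the time of a switch can move in the direction `a` -/
def TimeCond (θ : Shape n) (t : ℝ) (a : ℤ) : Prop :=
  (0 < t ∧ t < (θ.length : ℝ)) ∨ (t = 0 ∧ 0 < a) ∨ (t = (θ.length : ℝ) ∧ a < 0)

end Claimed.Agent.R282
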