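import Claimed.Agent.R282.S34.E.Defs

/-!
# Row 282, package E: the inputs from package B (`S34/Lat`, Lemma 3.5) in the form used here (glue only)
-/

set_option autoImplicit false

namespace Claimed.Agent.R282

variable {n : ℕ}

/-- (L3.5) the primitive relation among `n+1` roots generating `Q(D_n)` has entries in `{0,±1,±2}` -/
theorem e34_rel_bound (l : List (ℝ × RootD n)) (r : List ℤ) (hl : l.length = n + 1)
    (hg : SwGenQ l) (hr : IsPrimRel r l) : ∀ a ∈ r, |a| ≤ 2 :=
  lat_primRel_bound (lat_genQ_span hg) hl hr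

theorem e34_gapLin_eq (d : List ℝ) (l : List (ℝ × RootD n)) (i : ℕ) (hi : i < l.length) :
    gapLin d l i l[i].2 = (gapLinList d l).getD i 0 := by
  rw [lat_gapLin_getD d l i hi]; rfl

/-- (L3.5) the same for its image `r^G` under the linear part of (3.3) -/
theorem e34_relG_bound (l : List (ℝ × RootD n)) (r : List ℤ) (hl : l.length = n + 1)
    (hg : SwGenQ l) (hr : IsPrimRel r l) (i : ℕ) (hi : i < l.length) :
    ∃ z : ℤ, gapLin (r.map (fun z => (z : ℝ))) l i l[i].2 = z ∧ |z| ≤ 2 := by
  rw [e34_gapLin_eq _ l i hi]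
  have hi' : i < (gapLinList (r.map (fun z => (z : ℝ))) l).length := by
    rw [lat_gapLin_length]; exact hi
  rw [List.getD_eq_getElem _ _ hi']
  exact lat_gap_bound (lat_genQ_span hg) hl hr _ (List.getElem_mem hi')

end Claimed.Agent.R282
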