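import Claimed.Agent.R282.S34.E.Sort
import Claimed.Agent.R282.S34.E.Pert

/-!
# Row 282, package E: the PERTURBATION LEMMA (`LinkBase → HasLink`), assembly

Retime first (the retimed list need not be sorted), then sort by commutations of orthogonal switches (`e34_orth_sort`).

Everything is PROVED.
-/

set_option autoImplicit false

namespace Claimed.Agent.R282

variable {n : ℕ}

theorem e34_retime_getElem (T : List ℝ) (l : List (ℝ × RootD n)) (h : T.length = l.length)
    (i : ℕ) (hi : i < (retime T l).length) (hi' : i < l.length) :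
    (retime T l)[i] = (T.getD i 0, l[i].2) := by
  have hiT : i < T.length := by rw [h]; exact hi'
  simp only [retime, List.getElem_zipWith]
  rw [List.getD_eq_getElem _ _ hiT]

/-- index form of `Good` -/
theorem e34_good_index (θ : Shape n) (S : SwState n) (l : List (ℝ × RootD n)) (r : List ℤ)
    (s ε : ℝ) (T : List ℝ) (hr : r.length = l.length) (hT : Good θ S l r s ε T) (i : ℕ)
    (hi : i < l.length) :
    (0 ≤ T.getD i 0 ∧ T.getD i 0 ≤ (θ.length : ℝ)) ∧ |T.getD i 0 - l[i].1| < ε ∧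
      levFn θ S l i l[i].2 (T.getD i 0)
        = levFn θ S l i l[i].2 l[i].1 + s * (r.getD i 0 : ℤ) := by
  have hiT : i < T.length := by rw [hT.len]; exact hi
  have hlen := e34_retime_length T l hT.len
  have hi' : i < (retime T l).length := by rw [hlen]; exact hi
  refine ⟨?_, ?_, ?_⟩
  · rw [List.getD_eq_getElem _ _ hiT]
    exact hT.mem _ (List.getElem_mem hiT)
  · rw [List.getD_eq_getElem _ _ hiT]
    exact (List.forall₂_iff_get.1 hT.near).2 i hiT hi
  · have h1 : (swCoeffs θ S (retime T l)).getD i 0 = (shiftCo s (swCoeffs θ S l) r).getD i 0 := by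
      rw [hT.co]
    rw [sc_coeffs_get θ S _ i hi', e34_retime_getElem T l hT.len i hi' hi,
      e34_shiftCo_getD s _ r (by rw [sc_coeffs_length, hr]), sc_coeffs_get θ S l i hi] at h1
    unfold levFn
    rw [← h1]
    unfold SwState.coeff
    rw [sc_frame_congr θ S l (retime T l) (e34_retime_snd T l hT.len) i]

/-- in the retimed list of a `LinkBase` every inverted pair is orthogonal -/
theorem e34_link_pairwise (lam xi : Vec n) (θ : Shape n) (G : GenericShape θ) (w0 : WD n)
    (l : List (ℝ × RootD n)) (r : List ℤ) (B : LinkBase lam θ xi w0 l r) (s ε : ℝ) (hs : 0 < s)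
    (hsep : ∀ a ∈ l.map Prod.fst, ∀ b ∈ l.map Prod.fst, a < b → a + 2 * ε ≤ b)
    (T : List ℝ) (hT : Good θ ⟨w0.act, lam⟩ l r s ε T) :
    (retime T l).Pairwise (fun p q => p.1 ≤ q.1 ∨ dot p.2.vec q.2.vec = 0) := by
  rw [List.pairwise_iff_getElem]
  intro i j hi hj hij
  have hlen := e34_retime_length T l hT.len
  have hi' : i < l.length := hlen ▸ hi
  have hj' : j < l.length := hlen ▸ hj
  rw [e34_retime_getElem T l hT.len i hi hi', e34_retime_getElem T l hT.len j hj hj']
  simp only []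
  obtain ⟨⟨ai0, ai1⟩, ani, aco⟩ := e34_good_index θ _ l r s ε T B.rel.1 hT i hi'
  obtain ⟨⟨bj0, bj1⟩, bnj, bco⟩ := e34_good_index θ _ l r s ε T B.rel.1 hT j hj'
  have hle : l[i].1 ≤ l[j].1 := (List.pairwise_iff_getElem.1 B.sched.sorted) i j hi' hj' hij
  rcases hle.lt_or_eq with hlt | heq
  · left
    have := hsep l[i].1 (List.mem_map_of_mem (List.getElem_mem hi')) l[j].1
      (List.mem_map_of_mem (List.getElem_mem hj')) hlt
    rw [abs_lt] at ani bnj
    linarith [ani.2, bnj.1]
  · rcases B.ord i j hi' hj' hij heq with ho | ⟨hlev, hrr⟩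
    · right; exact ho
    · left
      have htot : 0 < (stAt θ ⟨w0.act, lam⟩ l j).total θ l[j].2 := by
        rw [← sc_totals_get θ _ l j hj']
        have hj'' : j < (swTotals θ ⟨w0.act, lam⟩ l).length := by rw [sc_totals_length]; exact hj'
        rw [List.getD_eq_getElem _ _ hj'']
        exact B.tot _ (List.getElem_mem hj'')
      have hmono := sc_coeff_strictMono θ G (stAt θ ⟨w0.act, lam⟩ l j)
        (sc_isFrame_stAt θ _ (sc_isFrame_act w0) l j) l[j].2 htot
      rw [hlev, hlev, heq] at aco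
      have hrr' : ((r.getD i 0 : ℤ) : ℝ) ≤ ((r.getD j 0 : ℤ) : ℝ) := by exact_mod_cast hrr
      have hcmp : levFn θ ⟨w0.act, lam⟩ l j l[j].2 (T.getD i 0)
          ≤ levFn θ ⟨w0.act, lam⟩ l j l[j].2 (T.getD j 0) := by
        rw [aco, bco]
        have := mul_le_mul_of_nonneg_left hrr' hs.le
        linarith
      exact (hmono.le_iff_le ⟨ai0, ai1⟩ ⟨bj0, bj1⟩).1 hcmp

/-- PERTURBATION LEMMA -/
theorem e34_link_of_base (lam xi : Vec n) (θ : Shape n) (G : GenericShape θ) (w0 : WD n)
    (l : List (ℝ × RootD n)) (r : List ℤ) (B : LinkBase lam θ xi w0 l r) :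
    HasLink lam θ xi := by
  have W : PreAug lam θ xi (1 / 2) w0 l r :=
    ⟨B.sched.times_mem, B.sched.valid, B.sched.endpoint, B.len, B.gen, B.rel, B.half⟩
  obtain ⟨ε, hε, hsep⟩ := e34_sep (l.map Prod.fst)
  obtain ⟨s₁, hs₁, hall⟩ := e34_good_exists θ G ⟨w0.act, lam⟩ (sc_isFrame_act _) l r B.tot (by
      rw [List.forall₂_iff_get]
      refine ⟨B.rel.1.symm, fun i h₁ h₂ => ?_⟩
      have := B.time i h₁
      rw [List.getD_eq_getElem _ _ h₂] at this
      exact this) B.gap ε hε
  have hspos : 0 < min s₁ (1 / 2) := lt_min hs₁ (by norm_num)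
  obtain ⟨T, hT⟩ := hall (min s₁ (1 / 2)) hspos (min_le_left _ _)
  have W' := e34_retime_preAug lam xi θ (1 / 2) _ ε w0 l r T W hT
  obtain ⟨l', r', W'', hs'⟩ := e34_orth_sort lam xi θ _ w0 _ r W'
    (e34_link_pairwise lam xi θ G w0 l r B _ ε hspos hsep T hT)
  have := min_le_right s₁ (1 / 2 : ℝ)
  exact ⟨1 / 2 - min s₁ (1 / 2), by linarith, by linarith,
    (e34_augAt_iff lam xi θ _).2 ⟨w0, l', r', W'', hs'⟩⟩

end Claimed.Agent.R282
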