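import Claimed.Agent.R282.S34.E.Calc

/-!
# Row 282, package E: the pair moves A, B and the swap (state level)

For two consecutive switches `(t,β₁), (t,β₂)` in the state `S = (f, c)`, `k = β₁·β₂`, `a(u) = f η(u)`:
  A : `(t,β₂), (t, s_{β₂} β₁)`      B : `(t, s_{β₁} β₂), (t,β₁)`.
All statements are identities of `dot` / `refl` (unfold `SwState.step, coeff, gap, total, pos, refl`,
use `sc_reflRoot_vec`, `sc_dot_*`, `sc_vec_dot_self`, `sc_dot_refl_left`, `sc_refl_map`); they hold for EVERY value of `k`.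

LEAF LF-E-P1 = section `MoveA`, LF-E-P2 = section `MoveB`, LF-E-P3 = section `Swap`.
`e34_diamond` (section `Diamond`) is PROVED from them.
-/

set_option autoImplicit false

namespace Claimed.Agent.R282

variable {n : ℕ}

theorem e34_reflRoot_vec (β γ : RootD n) :
    (reflRoot β γ).vec = γ.vec - dot γ.vec β.vec • β.vec := by
  rw [sc_reflRoot_vec]; rfl

section MoveA

theorem e34_refl_reflRoot (β γ : RootD n) (u : Vec n) :
    refl (reflRoot β γ) (refl β u) = refl β (refl γ u) := by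
  have := sc_refl_map (WB.ofRoot β) γ u
  rw [sc_ofRoot_act, sc_ofRoot_act] at this
  exact this

/-- `β₂·a = β₂·s_{β₁}a + k β₁·a` -/
theorem e34_formA1 (β₁ β₂ : RootD n) (a : Vec n) :
    - dot β₂.vec a = - dot β₂.vec (refl β₁ a) + dot β₁.vec β₂.vec * (- dot β₁.vec a) := by
  unfold refl
  rw [sc_dot_sub_right, sc_dot_smul_right, sc_dot_comm a β₁.vec, sc_dot_comm β₂.vec β₁.vec]
  ring

theorem e34_formA2 (β₁ β₂ : RootD n) (a : Vec n) :
    - dot (reflRoot β₂ β₁).vec (refl β₂ a) = - dot β₁.vec a := by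
  rw [sc_reflRoot_vec, sc_dot_refl_refl]

theorem e34_pairA_lev (θ : Shape n) (S : SwState n) (t t' u : ℝ) (β₁ β₂ : RootD n) :
    S.coeff θ u β₂ = (S.step θ t β₁).coeff θ u β₂ + dot β₁.vec β₂.vec * S.coeff θ u β₁ ∧
      (S.step θ t' β₂).coeff θ u (reflRoot β₂ β₁) = S.coeff θ u β₁ :=
  ⟨e34_formA1 β₁ β₂ _, e34_formA2 β₁ β₂ _⟩

theorem e34_pairA_tot (θ : Shape n) (S : SwState n) (t t' : ℝ) (β₁ β₂ : RootD n) :
    S.total θ β₂ = (S.step θ t β₁).total θ β₂ + dot β₁.vec β₂.vec * S.total θ β₁ ∧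
      (S.step θ t' β₂).total θ (reflRoot β₂ β₁) = S.total θ β₁ :=
  ⟨e34_formA1 β₁ β₂ _, e34_formA2 β₁ β₂ _⟩

theorem e34_pairA_run (θ : Shape n) (S : SwState n) (t : ℝ) (β₁ β₂ : RootD n) :
    runSw θ S [(t, β₂), (t, reflRoot β₂ β₁)] = runSw θ S [(t, β₁), (t, β₂)] := by
  obtain ⟨h1, h2⟩ := e34_pairA_lev θ S t t t β₁ β₂
  show (⟨fun x => refl (reflRoot β₂ β₁) (refl β₂ (S.frame x)),
      S.c - S.coeff θ t β₂ • β₂.vec
        - (S.step θ t β₂).coeff θ t (reflRoot β₂ β₁) • (reflRoot β₂ β₁).vec⟩ : SwState n)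
    = ⟨fun x => refl β₂ (refl β₁ (S.frame x)),
      S.c - S.coeff θ t β₁ • β₁.vec - (S.step θ t β₁).coeff θ t β₂ • β₂.vec⟩
  congr 1
  · funext x
    exact e34_refl_reflRoot β₂ β₁ _
  · rw [h2, h1, e34_reflRoot_vec]
    funext k
    simp only [Pi.sub_apply, Pi.smul_apply, smul_eq_mul]
    ring

theorem e34_pairA_gap (θ : Shape n) (S : SwState n) (t : ℝ) (β₁ β₂ : RootD n) :
    S.gap θ t β₂ = (S.step θ t β₁).gap θ t β₂ ∧
      (S.step θ t β₂).gap θ t (reflRoot β₂ β₁)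
        = S.gap θ t β₁ - dot β₁.vec β₂.vec * (S.step θ t β₁).gap θ t β₂ := by
  unfold SwState.gap
  rw [sc_pos_step, sc_pos_step, e34_reflRoot_vec, sc_dot_sub_right, sc_dot_smul_right]
  exact ⟨rfl, rfl⟩

end MoveA

section MoveB

theorem e34_formB1 (β₁ β₂ : RootD n) (a : Vec n) :
    - dot (reflRoot β₁ β₂).vec a = - dot β₂.vec (refl β₁ a) := by
  rw [sc_reflRoot_vec, sc_dot_refl_left]

theorem e34_formB2 (β₁ β₂ : RootD n) (a : Vec n) :
    - dot β₁.vec (refl (reflRoot β₁ β₂) a)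
      = - dot β₁.vec a + dot β₁.vec β₂.vec * (- dot β₂.vec (refl β₁ a)) := by
  unfold refl
  rw [e34_reflRoot_vec]
  simp only [sc_dot_sub_right, sc_dot_smul_right, sc_vec_dot_self]
  rw [sc_dot_comm a β₁.vec, sc_dot_comm β₂.vec β₁.vec, sc_dot_comm a β₂.vec]
  ring

theorem e34_pairB_lev (θ : Shape n) (S : SwState n) (t t' u : ℝ) (β₁ β₂ : RootD n) :
    S.coeff θ u (reflRoot β₁ β₂) = (S.step θ t β₁).coeff θ u β₂ ∧
      (S.step θ t' (reflRoot β₁ β₂)).coeff θ u β₁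
        = S.coeff θ u β₁ + dot β₁.vec β₂.vec * (S.step θ t β₁).coeff θ u β₂ :=
  ⟨e34_formB1 β₁ β₂ _, e34_formB2 β₁ β₂ _⟩

theorem e34_pairB_tot (θ : Shape n) (S : SwState n) (t t' : ℝ) (β₁ β₂ : RootD n) :
    S.total θ (reflRoot β₁ β₂) = (S.step θ t β₁).total θ β₂ ∧
      (S.step θ t' (reflRoot β₁ β₂)).total θ β₁
        = S.total θ β₁ + dot β₁.vec β₂.vec * (S.step θ t β₁).total θ β₂ :=
  ⟨e34_formB1 β₁ β₂ _, e34_formB2 β₁ β₂ _⟩

theorem e34_pairB_run (θ : Shape n) (S : SwState n) (t : ℝ) (β₁ β₂ : RootD n) :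
    runSw θ S [(t, reflRoot β₁ β₂), (t, β₁)] = runSw θ S [(t, β₁), (t, β₂)] := by
  obtain ⟨h1, h2⟩ := e34_pairB_lev θ S t t t β₁ β₂
  show (⟨fun x => refl β₁ (refl (reflRoot β₁ β₂) (S.frame x)),
      S.c - S.coeff θ t (reflRoot β₁ β₂) • (reflRoot β₁ β₂).vec
        - (S.step θ t (reflRoot β₁ β₂)).coeff θ t β₁ • β₁.vec⟩ : SwState n)
    = ⟨fun x => refl β₂ (refl β₁ (S.frame x)),
      S.c - S.coeff θ t β₁ • β₁.vec - (S.step θ t β₁).coeff θ t β₂ • β₂.vec⟩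
  congr 1
  · funext x
    have := e34_refl_reflRoot β₁ β₂ (refl β₁ (S.frame x))
    rw [sc_refl_refl] at this
    rw [this, sc_refl_refl]
  · rw [h2, h1, e34_reflRoot_vec, sc_dot_comm β₂.vec β₁.vec]
    funext k
    simp only [Pi.sub_apply, Pi.smul_apply, smul_eq_mul]
    ring

theorem e34_pairB_gap (θ : Shape n) (S : SwState n) (t : ℝ) (β₁ β₂ : RootD n) :
    S.gap θ t (reflRoot β₁ β₂)
        = (S.step θ t β₁).gap θ t β₂ - dot β₁.vec β₂.vec * S.gap θ t β₁ ∧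
      (S.step θ t (reflRoot β₁ β₂)).gap θ t β₁ = S.gap θ t β₁ := by
  unfold SwState.gap
  rw [sc_pos_step, sc_pos_step, e34_reflRoot_vec, sc_dot_sub_right, sc_dot_smul_right,
    sc_dot_comm β₂.vec β₁.vec]
  exact ⟨rfl, rfl⟩

end MoveB

section Swap

theorem e34_swap_coeff (θ : Shape n) (S : SwState n) (t₁ t₂ : ℝ) (β₁ β₂ : RootD n)
    (h : dot β₁.vec β₂.vec = 0) :
    S.coeff θ t₂ β₂ = (S.step θ t₁ β₁).coeff θ t₂ β₂ ∧
      (S.step θ t₂ β₂).coeff θ t₁ β₁ = S.coeff θ t₁ β₁ :=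
  ⟨(sc_comm_level θ S t₁ t₂ β₁ β₂ h).symm,
    sc_comm_level θ S t₂ t₁ β₂ β₁ (by rw [sc_dot_comm]; exact h)⟩

theorem e34_swap_run (θ : Shape n) (S : SwState n) (t₁ t₂ : ℝ) (β₁ β₂ : RootD n)
    (h : dot β₁.vec β₂.vec = 0) :
    runSw θ S [(t₂, β₂), (t₁, β₁)] = runSw θ S [(t₁, β₁), (t₂, β₂)] := by
  obtain ⟨h1, h2⟩ := e34_swap_coeff θ S t₁ t₂ β₁ β₂ h
  show (⟨fun x => refl β₁ (refl β₂ (S.frame x)),
      S.c - S.coeff θ t₂ β₂ • β₂.vec - (S.step θ t₂ β₂).coeff θ t₁ β₁ • β₁.vec⟩ : SwState n)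
    = ⟨fun x => refl β₂ (refl β₁ (S.frame x)),
      S.c - S.coeff θ t₁ β₁ • β₁.vec - (S.step θ t₁ β₁).coeff θ t₂ β₂ • β₂.vec⟩
  congr 1
  · funext x
    exact sc_refl_comm β₁ β₂ h _
  · rw [h2, ← h1]
    abel

theorem e34_swap_gap (θ : Shape n) (S : SwState n) (t₁ t₂ : ℝ) (β₁ β₂ : RootD n)
    (h : dot β₁.vec β₂.vec = 0) : (S.step θ t₁ β₁).gap θ t₂ β₂ = S.gap θ t₂ β₂ := by
  rw [sc_gap_eq, sc_gap_eq, sc_comm_level θ S t₁ t₂ β₁ β₂ h]
  show dot (S.c - S.coeff θ t₁ β₁ • β₁.vec) β₂.vec - _ = _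
  rw [sc_dot_sub_left, sc_dot_smul_left, h, mul_zero, sub_zero]

theorem e34_swap_valid (θ : Shape n) (S : SwState n) (t₁ t₂ : ℝ) (β₁ β₂ : RootD n)
    (h : dot β₁.vec β₂.vec = 0) (hv : SwValid θ S [(t₁, β₁), (t₂, β₂)]) :
    SwValid θ S [(t₂, β₂), (t₁, β₁)] := by
  have h' : dot β₂.vec β₁.vec = 0 := by rw [sc_dot_comm]; exact h
  obtain ⟨g1, t1, g2, t2, -⟩ := hv
  have g2' : 0 ≤ (S.step θ t₁ β₁).gap θ t₂ β₂ := g2
  have t2' : 0 ≤ (S.step θ t₁ β₁).total θ β₂ := t2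
  rw [e34_swap_gap θ S t₁ t₂ β₁ β₂ h] at g2'
  rw [(sc_comm_data θ S t₁ β₁ β₂ h).2.2] at t2'
  refine ⟨g2', t2', ?_, ?_, trivial⟩
  · show 0 ≤ (S.step θ t₂ β₂).gap θ t₁ β₁
    rw [e34_swap_gap θ S t₂ t₁ β₂ β₁ h']
    exact g1
  · show 0 ≤ (S.step θ t₂ β₂).total θ β₁
    rw [(sc_comm_data θ S t₂ β₂ β₁ h').2.2]
    exact t1

end Swap

section Diamond

/-- THE DIAMOND: with strict signs one of the two alternative routes has weakly correct signs. -/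
theorem e34_diamond (θ : Shape n) (S : SwState n) (t : ℝ) (β₁ β₂ : RootD n)
    (hg₁ : 0 < S.gap θ t β₁) (ht₁ : 0 < S.total θ β₁)
    (hg₂ : 0 < (S.step θ t β₁).gap θ t β₂) (ht₂ : 0 < (S.step θ t β₁).total θ β₂) :
    SwValid θ S [(t, β₂), (t, reflRoot β₂ β₁)] ∨ SwValid θ S [(t, reflRoot β₁ β₂), (t, β₁)] := by
  obtain ⟨z, hz, hz1, hz2⟩ := sc_vec_dot_vec_int β₁ β₂
  obtain ⟨gA1, gA2⟩ := e34_pairA_gap θ S t β₁ β₂
  obtain ⟨tA1, tA2⟩ := e34_pairA_tot θ S t t β₁ β₂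
  obtain ⟨gB1, gB2⟩ := e34_pairB_gap θ S t β₁ β₂
  obtain ⟨tB1, tB2⟩ := e34_pairB_tot θ S t t β₁ β₂
  simp only [SwValid, and_true]
  rw [gA1, gA2, tA1, tA2, gB1, gB2, tB1, tB2, hz]
  have hcases : z = -2 ∨ z = -1 ∨ z = 0 ∨ z = 1 ∨ z = 2 := by omega
  rcases hcases with rfl | rfl | rfl | rfl | rfl
  · -- `β₂ = - β₁`
    exfalso
    have h2 : dot β₁.vec β₂.opp.vec = 2 := by
      rw [sc_neg_vec, sc_dot_neg_right, hz]; norm_num
    have h3 := sc_vec_dot_vec_two β₁ β₂.opp h2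
    rw [sc_neg_vec] at h3
    have h4 : β₂.vec = - β₁.vec := by rw [← h3]; simp
    have h5 : S.gap θ t β₂ = - S.gap θ t β₁ := by
      unfold SwState.gap; rw [h4, sc_dot_neg_right]
    rw [gA1] at h5
    linarith
  · rcases le_total (S.total θ β₁) ((S.step θ t β₁).total θ β₂) with h | h
    · left; push_cast; refine ⟨hg₂.le, by linarith, by linarith, ht₁.le⟩
    · right; push_cast; refine ⟨by linarith, ht₂.le, hg₁.le, by linarith⟩
  · left; push_cast; refine ⟨hg₂.le, by linarith, by linarith, ht₁.le⟩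
  · rcases le_total ((S.step θ t β₁).gap θ t β₂) (S.gap θ t β₁) with h | h
    · left; push_cast; refine ⟨hg₂.le, by linarith, by linarith, ht₁.le⟩
    · right; push_cast; refine ⟨by linarith, ht₂.le, hg₁.le, by linarith⟩
  · -- `β₂ = β₁`
    exfalso
    have h3 := sc_vec_dot_vec_two β₁ β₂ (by rw [hz]; norm_num)
    have h5 : S.total θ β₂ = S.total θ β₁ := by
      unfold SwState.total; rw [h3]
    rw [tA1, hz] at h5
    push_cast at h5
    linarith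

end Diamond

end Claimed.Agent.R282
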