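import Claimed.Agent.R282.S34.E.Pair

/-!
# Row 282, package E: replacing two consecutive switches in a witness (list level)

`U = (u11 u12; u21 u22)` is an integral matrix with integral left inverse `V`.  The old pair `p₁, p₂` is
replaced by `q₁, q₂`; coefficients, `r` and integral coefficient vectors are transformed by `U`.

LEAF LF-E-R1 = `e34_replace_relSum`, `e34_replace_rel` (lattice part; `sc_relSum_append`,
`sc_relSum_cons`, `sd_cast_list`, `List.map_append`; primitivity: `a = V (U a)`),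
LEAF LF-E-R2 = `e34_replace_coeffs`, `e34_replace_int`, `e34_replace_sched` (state machine part; `sc_*_append`).
`e34_replace` and its three instances `e34_moveA`, `e34_moveB`, `e34_moveSwap` are glue.
-/

set_option autoImplicit false

namespace Claimed.Agent.R282

variable {n : ℕ}

theorem e34_replace_relSum (l₁ l₂ : List (ℝ × RootD n)) (p₁ p₂ q₁ q₂ : ℝ × RootD n)
    (u11 u12 u21 u22 : ℝ) (c₁ c₂ : List ℝ) (a₁ a₂ : ℝ) (hlen : c₁.length = l₁.length)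
    (hv₁ : p₁.2.vec = u11 • q₁.2.vec + u21 • q₂.2.vec)
    (hv₂ : p₂.2.vec = u12 • q₁.2.vec + u22 • q₂.2.vec) :
    relSum (c₁ ++ (u11 * a₁ + u12 * a₂) :: (u21 * a₁ + u22 * a₂) :: c₂) (l₁ ++ q₁ :: q₂ :: l₂)
      = relSum (c₁ ++ a₁ :: a₂ :: c₂) (l₁ ++ p₁ :: p₂ :: l₂) := by
  rw [sc_relSum_append _ _ _ _ hlen, sc_relSum_append _ _ _ _ hlen, sc_relSum_cons, sc_relSum_cons,
    sc_relSum_cons, sc_relSum_cons, hv₁, hv₂]
  module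

theorem e34_replace_gen (l₁ l₂ : List (ℝ × RootD n)) (p₁ p₂ q₁ q₂ : ℝ × RootD n)
    (u11 u12 u21 u22 : ℤ)
    (hv₁ : p₁.2.vec = (u11 : ℝ) • q₁.2.vec + (u21 : ℝ) • q₂.2.vec)
    (hv₂ : p₂.2.vec = (u12 : ℝ) • q₁.2.vec + (u22 : ℝ) • q₂.2.vec)
    (h : SwGenQ (l₁ ++ p₁ :: p₂ :: l₂)) : SwGenQ (l₁ ++ q₁ :: q₂ :: l₂) := by
  have hq₁ : SwSpanZ (l₁ ++ q₁ :: q₂ :: l₂) q₁.2.vec := lat_spanZ_root (by simp)
  have hq₂ : SwSpanZ (l₁ ++ q₁ :: q₂ :: l₂) q₂.2.vec := lat_spanZ_root (by simp)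
  refine lat_genQ_mono h fun p hp => ?_
  simp only [List.mem_append, List.mem_cons] at hp
  rcases hp with hp | rfl | rfl | hp
  · exact lat_spanZ_root (by simp [hp])
  · rw [hv₁]; exact lat_spanZ_add (lat_spanZ_zsmul _ hq₁) (lat_spanZ_zsmul _ hq₂)
  · rw [hv₂]; exact lat_spanZ_add (lat_spanZ_zsmul _ hq₁) (lat_spanZ_zsmul _ hq₂)
  · exact lat_spanZ_root (by simp [hp])

theorem e34_replace_rel (l₁ l₂ : List (ℝ × RootD n)) (p₁ p₂ q₁ q₂ : ℝ × RootD n)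
    (r₁ r₂ : List ℤ) (a₁ a₂ : ℤ) (u11 u12 u21 u22 v11 v12 v21 v22 : ℤ)
    (hlen : r₁.length = l₁.length)
    (hV1 : v11 * u11 + v12 * u21 = 1) (hV2 : v11 * u12 + v12 * u22 = 0)
    (hV3 : v21 * u11 + v22 * u21 = 0) (hV4 : v21 * u12 + v22 * u22 = 1)
    (hv₁ : p₁.2.vec = (u11 : ℝ) • q₁.2.vec + (u21 : ℝ) • q₂.2.vec)
    (hv₂ : p₂.2.vec = (u12 : ℝ) • q₁.2.vec + (u22 : ℝ) • q₂.2.vec)
    (h : IsPrimRel (r₁ ++ a₁ :: a₂ :: r₂) (l₁ ++ p₁ :: p₂ :: l₂)) :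
    IsPrimRel (r₁ ++ (u11 * a₁ + u12 * a₂) :: (u21 * a₁ + u22 * a₂) :: r₂)
      (l₁ ++ q₁ :: q₂ :: l₂) := by
  obtain ⟨h1, h2, h3⟩ := h
  refine ⟨?_, ?_, ?_⟩
  · simp only [List.length_append, List.length_cons] at h1 ⊢
    exact h1
  · rw [sd_cast_list] at h2 ⊢
    rw [List.map_append, List.map_cons, List.map_cons] at h2 ⊢
    rw [← h2]
    push_cast
    exact e34_replace_relSum l₁ l₂ p₁ p₂ q₁ q₂ u11 u12 u21 u22 _ _ a₁ a₂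
      (by rw [List.length_map, hlen]) hv₁ hv₂
  · intro d hd
    refine h3 d fun a ha => ?_
    have d1 : d ∣ u11 * a₁ + u12 * a₂ := hd _ (by simp)
    have d2 : d ∣ u21 * a₁ + u22 * a₂ := hd _ (by simp)
    simp only [List.mem_append, List.mem_cons] at ha
    rcases ha with ha | rfl | rfl | ha
    · exact hd a (by simp [ha])
    · have e : a = v11 * (u11 * a + u12 * a₂) + v12 * (u21 * a + u22 * a₂) := by
        linear_combination (-a) * hV1 - a₂ * hV2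
      rw [e]
      exact (d1.mul_left _).add (d2.mul_left _)
    · have e : a = v21 * (u11 * a₁ + u12 * a) + v22 * (u21 * a₁ + u22 * a) := by
        linear_combination (-a₁) * hV3 - a * hV4
      rw [e]
      exact (d1.mul_left _).add (d2.mul_left _)
    · exact hd a (by simp [ha])

/-- the coefficient list around a pair -/
theorem e34_replace_coeffs (θ : Shape n) (S₀ : SwState n) (l₁ l₂ : List (ℝ × RootD n))
    (p₁ p₂ : ℝ × RootD n) :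
    swCoeffs θ S₀ (l₁ ++ p₁ :: p₂ :: l₂) = swCoeffs θ S₀ l₁ ++
      (runSw θ S₀ l₁).coeff θ p₁.1 p₁.2 ::
      ((runSw θ S₀ l₁).step θ p₁.1 p₁.2).coeff θ p₂.1 p₂.2 ::
      swCoeffs θ (runSw θ (runSw θ S₀ l₁) [p₁, p₂]) l₂ := by
  rw [sc_coeffs_append]
  rfl

/-- integrality is transported by `U` -/
theorem e34_replace_int (x : ℝ) (M₁ M₂ : List ℝ) (m₁ m₂ : ℝ) (r₁ r₂ : List ℤ) (a₁ a₂ : ℤ)
    (u11 u12 u21 u22 : ℤ) (hlen : r₁.length = M₁.length)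
    (h : List.Forall₂ (fun (m : ℝ) (a : ℤ) => ∃ z : ℤ, m + x * a = z)
      (M₁ ++ m₁ :: m₂ :: M₂) (r₁ ++ a₁ :: a₂ :: r₂)) :
    List.Forall₂ (fun (m : ℝ) (a : ℤ) => ∃ z : ℤ, m + x * a = z)
      (M₁ ++ (u11 * m₁ + u12 * m₂) :: (u21 * m₁ + u22 * m₂) :: M₂)
      (r₁ ++ (u11 * a₁ + u12 * a₂) :: (u21 * a₁ + u22 * a₂) :: r₂) := by
  induction M₁ generalizing r₁ with
  | nil =>
    have : r₁ = [] := List.length_eq_zero_iff.1 hlen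
    subst this
    simp only [List.nil_append, List.forall₂_cons] at h ⊢
    obtain ⟨⟨z₁, hz₁⟩, ⟨z₂, hz₂⟩, h3⟩ := h
    refine ⟨⟨u11 * z₁ + u12 * z₂, ?_⟩, ⟨u21 * z₁ + u22 * z₂, ?_⟩, h3⟩
    · push_cast
      rw [← hz₁, ← hz₂]
      ring
    · push_cast
      rw [← hz₁, ← hz₂]
      ring
  | cons m M₁ ih =>
    cases r₁ with
    | nil => simp at hlen
    | cons b r₁ =>
      simp only [List.cons_append, List.forall₂_cons] at h ⊢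
      exact ⟨h.1, ih r₁ (by simpa using hlen) h.2⟩

/-- validity and final state -/
theorem e34_replace_sched (θ : Shape n) (S₀ : SwState n) (l₁ l₂ : List (ℝ × RootD n))
    (p₁ p₂ q₁ q₂ : ℝ × RootD n)
    (hrun : runSw θ (runSw θ S₀ l₁) [q₁, q₂] = runSw θ (runSw θ S₀ l₁) [p₁, p₂])
    (hval : SwValid θ (runSw θ S₀ l₁) [q₁, q₂])
    (h : SwValid θ S₀ (l₁ ++ p₁ :: p₂ :: l₂)) :
    SwValid θ S₀ (l₁ ++ q₁ :: q₂ :: l₂) ∧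
      runSw θ S₀ (l₁ ++ q₁ :: q₂ :: l₂) = runSw θ S₀ (l₁ ++ p₁ :: p₂ :: l₂) := by
  have e : ∀ (a b : ℝ × RootD n) (l : List (ℝ × RootD n)), a :: b :: l = [a, b] ++ l :=
    fun _ _ _ => rfl
  rw [e p₁ p₂, sc_valid_append, sc_valid_append] at h
  rw [e p₁ p₂, e q₁ q₂, sc_valid_append, sc_valid_append, hrun, sc_runSw_append, sc_runSw_append,
    sc_runSw_append, sc_runSw_append, hrun]
  exact ⟨⟨h.1, hval, h.2.2⟩, rfl⟩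

/-- GENERIC REPLACEMENT of a pair in a witness -/
theorem e34_replace (lam xi : Vec n) (θ : Shape n) (x : ℝ) (w0 : WD n)
    (l₁ l₂ : List (ℝ × RootD n)) (p₁ p₂ q₁ q₂ : ℝ × RootD n) (r₁ r₂ : List ℤ) (a₁ a₂ : ℤ)
    (u11 u12 u21 u22 v11 v12 v21 v22 : ℤ) (hlen : r₁.length = l₁.length)
    (hV1 : v11 * u11 + v12 * u21 = 1) (hV2 : v11 * u12 + v12 * u22 = 0)
    (hV3 : v21 * u11 + v22 * u21 = 0) (hV4 : v21 * u12 + v22 * u22 = 1)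
    (hq₁ : 0 ≤ q₁.1 ∧ q₁.1 ≤ (θ.length : ℝ)) (hq₂ : 0 ≤ q₂.1 ∧ q₂.1 ≤ (θ.length : ℝ))
    (hrun : runSw θ (runSw θ ⟨w0.act, lam⟩ l₁) [q₁, q₂]
      = runSw θ (runSw θ ⟨w0.act, lam⟩ l₁) [p₁, p₂])
    (hco₁ : (runSw θ ⟨w0.act, lam⟩ l₁).coeff θ q₁.1 q₁.2
      = u11 * (runSw θ ⟨w0.act, lam⟩ l₁).coeff θ p₁.1 p₁.2
        + u12 * ((runSw θ ⟨w0.act, lam⟩ l₁).step θ p₁.1 p₁.2).coeff θ p₂.1 p₂.2)
    (hco₂ : ((runSw θ ⟨w0.act, lam⟩ l₁).step θ q₁.1 q₁.2).coeff θ q₂.1 q₂.2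
      = u21 * (runSw θ ⟨w0.act, lam⟩ l₁).coeff θ p₁.1 p₁.2
        + u22 * ((runSw θ ⟨w0.act, lam⟩ l₁).step θ p₁.1 p₁.2).coeff θ p₂.1 p₂.2)
    (hv₁ : p₁.2.vec = (u11 : ℝ) • q₁.2.vec + (u21 : ℝ) • q₂.2.vec)
    (hv₂ : p₂.2.vec = (u12 : ℝ) • q₁.2.vec + (u22 : ℝ) • q₂.2.vec)
    (hval : SwValid θ (runSw θ ⟨w0.act, lam⟩ l₁) [q₁, q₂])
    (h : PreAug lam θ xi x w0 (l₁ ++ p₁ :: p₂ :: l₂) (r₁ ++ a₁ :: a₂ :: r₂)) :
    PreAug lam θ xi x w0 (l₁ ++ q₁ :: q₂ :: l₂)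
      (r₁ ++ (u11 * a₁ + u12 * a₂) :: (u21 * a₁ + u22 * a₂) :: r₂) := by
  obtain ⟨hv, hr⟩ := e34_replace_sched θ ⟨w0.act, lam⟩ l₁ l₂ p₁ p₂ q₁ q₂ hrun hval h.valid
  refine ⟨?_, hv, ?_, ?_, e34_replace_gen l₁ l₂ p₁ p₂ q₁ q₂ u11 u12 u21 u22 hv₁ hv₂ h.gen,
    e34_replace_rel l₁ l₂ p₁ p₂ q₁ q₂ r₁ r₂ a₁ a₂ u11 u12 u21 u22 v11 v12 v21 v22 hlen hV1 hV2 hV3
      hV4 hv₁ hv₂ h.rel, ?_⟩
  · intro p hp
    simp only [List.mem_append, List.mem_cons] at hp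
    rcases hp with hp | rfl | rfl | hp
    · exact h.times_mem p (by simp [hp])
    · exact hq₁
    · exact hq₂
    · exact h.times_mem p (by simp [hp])
  · rw [hr]; exact h.endpoint
  · have := h.len
    simp only [List.length_append, List.length_cons] at this ⊢
    exact this
  · have hi := h.int
    rw [e34_replace_coeffs] at hi ⊢
    rw [hrun, hco₁, hco₂]
    exact e34_replace_int x _ _ _ _ r₁ r₂ a₁ a₂ u11 u12 u21 u22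
      (by rw [hlen, sc_coeffs_length]) hi

/-- move A in a witness -/
theorem e34_moveA (lam xi : Vec n) (θ : Shape n) (x : ℝ) (w0 : WD n)
    (l₁ l₂ : List (ℝ × RootD n)) (t : ℝ) (β₁ β₂ : RootD n) (r₁ r₂ : List ℤ) (a₁ a₂ k : ℤ)
    (hlen : r₁.length = l₁.length) (hk : dot β₁.vec β₂.vec = k)
    (hval : SwValid θ (runSw θ ⟨w0.act, lam⟩ l₁) [(t, β₂), (t, reflRoot β₂ β₁)])
    (h : PreAug lam θ xi x w0 (l₁ ++ (t, β₁) :: (t, β₂) :: l₂) (r₁ ++ a₁ :: a₂ :: r₂)) :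
    PreAug lam θ xi x w0 (l₁ ++ (t, β₂) :: (t, reflRoot β₂ β₁) :: l₂)
      (r₁ ++ (k * a₁ + 1 * a₂) :: (1 * a₁ + 0 * a₂) :: r₂) := by
  have ht : 0 ≤ t ∧ t ≤ (θ.length : ℝ) := h.times_mem (t, β₁) (by simp)
  obtain ⟨c1, c2⟩ := e34_pairA_lev θ (runSw θ ⟨w0.act, lam⟩ l₁) t t t β₁ β₂
  refine e34_replace lam xi θ x w0 l₁ l₂ (t, β₁) (t, β₂) (t, β₂) (t, reflRoot β₂ β₁) r₁ r₂ a₁ a₂
    k 1 1 0 0 1 1 (-k) hlen (by ring) (by ring) (by ring) (by ring) ht ht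
    (e34_pairA_run θ _ t β₁ β₂) ?_ ?_ ?_ ?_ hval h
  · simp only []; rw [c1, hk]; push_cast; ring
  · simp only []; rw [c2]; push_cast; ring
  · simp only []; rw [e34_reflRoot_vec, hk]; push_cast; simp
  · simp only []; push_cast; simp

/-- move B in a witness -/
theorem e34_moveB (lam xi : Vec n) (θ : Shape n) (x : ℝ) (w0 : WD n)
    (l₁ l₂ : List (ℝ × RootD n)) (t : ℝ) (β₁ β₂ : RootD n) (r₁ r₂ : List ℤ) (a₁ a₂ k : ℤ)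
    (hlen : r₁.length = l₁.length) (hk : dot β₁.vec β₂.vec = k)
    (hval : SwValid θ (runSw θ ⟨w0.act, lam⟩ l₁) [(t, reflRoot β₁ β₂), (t, β₁)])
    (h : PreAug lam θ xi x w0 (l₁ ++ (t, β₁) :: (t, β₂) :: l₂) (r₁ ++ a₁ :: a₂ :: r₂)) :
    PreAug lam θ xi x w0 (l₁ ++ (t, reflRoot β₁ β₂) :: (t, β₁) :: l₂)
      (r₁ ++ (0 * a₁ + 1 * a₂) :: (1 * a₁ + k * a₂) :: r₂) := by
  have ht : 0 ≤ t ∧ t ≤ (θ.length : ℝ) := h.times_mem (t, β₁) (by simp)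
  obtain ⟨c1, c2⟩ := e34_pairB_lev θ (runSw θ ⟨w0.act, lam⟩ l₁) t t t β₁ β₂
  refine e34_replace lam xi θ x w0 l₁ l₂ (t, β₁) (t, β₂) (t, reflRoot β₁ β₂) (t, β₁) r₁ r₂ a₁ a₂
    0 1 1 k (-k) 1 1 0 hlen (by ring) (by ring) (by ring) (by ring) ht ht
    (e34_pairB_run θ _ t β₁ β₂) ?_ ?_ ?_ ?_ hval h
  · simp only []; rw [c1]; push_cast; ring
  · simp only []; rw [c2, hk]; push_cast; ring
  · simp only []; push_cast; simp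
  · simp only []; rw [e34_reflRoot_vec, sc_dot_comm, hk]; push_cast; simp

/-- swap of two orthogonal switches at arbitrary times in a witness -/
theorem e34_moveSwap (lam xi : Vec n) (θ : Shape n) (x : ℝ) (w0 : WD n)
    (l₁ l₂ : List (ℝ × RootD n)) (p₁ p₂ : ℝ × RootD n) (r₁ r₂ : List ℤ) (a₁ a₂ : ℤ)
    (hlen : r₁.length = l₁.length) (hk : dot p₁.2.vec p₂.2.vec = 0)
    (h : PreAug lam θ xi x w0 (l₁ ++ p₁ :: p₂ :: l₂) (r₁ ++ a₁ :: a₂ :: r₂)) :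
    PreAug lam θ xi x w0 (l₁ ++ p₂ :: p₁ :: l₂) (r₁ ++ a₂ :: a₁ :: r₂) := by
  obtain ⟨t₁, β₁⟩ := p₁
  obtain ⟨t₂, β₂⟩ := p₂
  have ht₁ : 0 ≤ t₁ ∧ t₁ ≤ (θ.length : ℝ) := h.times_mem (t₁, β₁) (by simp)
  have ht₂ : 0 ≤ t₂ ∧ t₂ ≤ (θ.length : ℝ) := h.times_mem (t₂, β₂) (by simp)
  obtain ⟨c1, c2⟩ := e34_swap_coeff θ (runSw θ ⟨w0.act, lam⟩ l₁) t₁ t₂ β₁ β₂ hk
  have hv0 := ((sc_valid_append θ ⟨w0.act, lam⟩ l₁ _).1 h.valid).2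
  have hv1 : SwValid θ (runSw θ ⟨w0.act, lam⟩ l₁) [(t₁, β₁), (t₂, β₂)] := by
    simp only [SwValid, and_true] at hv0 ⊢
    exact ⟨hv0.1, hv0.2.1, hv0.2.2.1, hv0.2.2.2.1⟩
  have := e34_replace lam xi θ x w0 l₁ l₂ (t₁, β₁) (t₂, β₂) (t₂, β₂) (t₁, β₁) r₁ r₂ a₁ a₂
    0 1 1 0 0 1 1 0 hlen (by ring) (by ring) (by ring) (by ring) ht₂ ht₁
    (e34_swap_run θ _ t₁ t₂ β₁ β₂ hk) (by simp only []; rw [c1]; push_cast; ring)
    (by simp only []; rw [c2]; push_cast; ring) (by simp) (by simp)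
    (e34_swap_valid θ _ t₁ t₂ β₁ β₂ hk hv1) h
  simpa using this

end Claimed.Agent.R282
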