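import Claimed.Agent.R282.S34.E.Replace
import Claimed.Agent.R282.S34.E.FromB

/-!
# Row 282, package E: finiteness, uniform steps, the lexicographically minimal witness, sorting

LEAF LF-E-L1 = `e34_lex_min` (lexicographic order on `List ℝ` is a linear order; a finite nonempty set has an element with
  minimal `T`; a list that is not `Pairwise (≤)` has an adjacent inversion `T₁ ++ a :: b :: T₂`, `b < a`
  (`List.isChain_iff_pairwise` / induction); `T₁ ++ a' :: T₂' < T₁ ++ a :: b :: T₂` if `a' < a`),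
LEAF LF-E-L2 = `e34_sep`, `e34_unif` (finite minima),
LEAF LF-E-L3 = `e34_finite_data`, `e34_finite_wit` (`List.finite_length_eq`, `sc_finite_RootD`, `sc_finite_WD`, `e34_rel_bound`;
  a list of switches is determined by its times and its roots),
LEAF LF-E-L4 = `e34_orth_sort` (plan at the statement).
-/

set_option autoImplicit false

namespace Claimed.Agent.R282

variable {n : ℕ}

/-- a list of reals is sorted or has an adjacent inversion -/
theorem e34_adj_inv (L : List ℝ) :
    L.Pairwise (· ≤ ·) ∨ ∃ (T₁ : List ℝ) (a b : ℝ) (T₂ : List ℝ), L = T₁ ++ a :: b :: T₂ ∧ b < a := by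
  induction L with
  | nil => exact Or.inl List.Pairwise.nil
  | cons x L ih =>
    rcases ih with h | ⟨T₁, a, b, T₂, e, hab⟩
    · cases L with
      | nil => exact Or.inl (List.pairwise_singleton _ _)
      | cons y L =>
        rcases le_or_gt x y with hxy | hxy
        · left
          rw [List.pairwise_cons]
          refine ⟨?_, h⟩
          intro z hz
          rcases List.mem_cons.1 hz with rfl | hz
          · exact hxy
          · exact hxy.trans ((List.pairwise_cons.1 h).1 z hz)
        · exact Or.inr ⟨[], x, y, L, rfl, hxy⟩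
    · exact Or.inr ⟨x :: T₁, a, b, T₂, by rw [e]; rfl, hab⟩

theorem e34_lex_lt (T₁ : List ℝ) (a a' : ℝ) (X Y : List ℝ) (h : a' < a) :
    T₁ ++ a' :: X < T₁ ++ a :: Y := by
  induction T₁ with
  | nil => exact List.Lex.rel h
  | cons x T ih => exact List.Lex.cons ih

/-- (L) a finite nonempty set that is closed under "improve the first entry of an adjacent inversion"
contains an element with a sorted list -/
theorem e34_lex_min {W : Type*} (A : Set W) (hfin : A.Finite) (hne : A.Nonempty)
    (T : W → List ℝ)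
    (hmove : ∀ w ∈ A, ∀ (T₁ : List ℝ) (a b : ℝ) (T₂ : List ℝ), T w = T₁ ++ a :: b :: T₂ → b < a →
      ∃ w' ∈ A, ∃ (a' : ℝ) (T₂' : List ℝ), T w' = T₁ ++ a' :: T₂' ∧ a' < a) :
    ∃ w ∈ A, (T w).Pairwise (· ≤ ·) := by
  obtain ⟨w, hw, hmin⟩ := Set.exists_min_image A T hfin hne
  refine ⟨w, hw, ?_⟩
  rcases e34_adj_inv (T w) with h | ⟨T₁, a, b, T₂, e, hab⟩
  · exact h
  · exfalso
    obtain ⟨w', hw', a', T₂', e', ha'⟩ := hmove w hw T₁ a b T₂ e hab
    have h1 := hmin w' hw'
    have h2 : T w' < T w := by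
      rw [e, e']
      exact e34_lex_lt T₁ a a' _ _ ha'
    exact absurd h1 (not_le.2 h2)

theorem e34_finset_pos (F : Finset ℝ) (h : ∀ x ∈ F, 0 < x) : ∃ ε > 0, ∀ x ∈ F, ε ≤ x := by
  induction F using Finset.induction_on with
  | empty => exact ⟨1, one_pos, by simp⟩
  | insert a F _ ih =>
    obtain ⟨ε, hε, hF⟩ := ih (fun x hx => h x (Finset.mem_insert_of_mem hx))
    refine ⟨min ε a, lt_min hε (h a (Finset.mem_insert_self _ _)), ?_⟩
    intro x hx
    rcases Finset.mem_insert.1 hx with rfl | hx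
    · exact min_le_right _ _
    · exact (min_le_left _ _).trans (hF x hx)

/-- distinct members of a finite list of reals are uniformly separated -/
theorem e34_sep (τ : List ℝ) : ∃ ε > 0, ∀ a ∈ τ, ∀ b ∈ τ, a < b → a + 2 * ε ≤ b := by
  classical
  obtain ⟨ε, hε, h⟩ := e34_finset_pos
    (((τ.toFinset ×ˢ τ.toFinset).filter (fun p => p.1 < p.2)).image (fun p => p.2 - p.1)) (by
      intro x hx
      obtain ⟨p, hp, rfl⟩ := Finset.mem_image.1 hx
      have := (Finset.mem_filter.1 hp).2
      linarith)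
  refine ⟨ε / 2, by positivity, ?_⟩
  intro a ha b hb hab
  have := h (b - a) (Finset.mem_image.2 ⟨(a, b), Finset.mem_filter.2
    ⟨Finset.mem_product.2 ⟨List.mem_toFinset.2 ha, List.mem_toFinset.2 hb⟩, hab⟩, rfl⟩)
  linarith

/-- a common threshold for finitely many "for all small `s`" statements -/
theorem e34_unif {W : Type*} (A : Set W) (hfin : A.Finite) (P : W → ℝ → Prop)
    (h : ∀ w ∈ A, ∃ s₁ > 0, ∀ s : ℝ, 0 < s → s ≤ s₁ → P w s) :
    ∃ s₁ > 0, ∀ s : ℝ, 0 < s → s ≤ s₁ → ∀ w ∈ A, P w s := by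
  classical
  rcases A.eq_empty_or_nonempty with rfl | hne
  · exact ⟨1, one_pos, by simp⟩
  · choose! f hf using h
    obtain ⟨w, hw, hmin⟩ := Set.exists_min_image A f hfin hne
    refine ⟨f w, (hf w hw).1, ?_⟩
    intro s hs hs' w' hw'
    exact (hf w' hw').2 s hs (hs'.trans (hmin w' hw'))

theorem e34_finite_intList (N : ℕ) : {r : List ℤ | r.length = N ∧ ∀ a ∈ r, |a| ≤ 2}.Finite := by
  induction N with
  | zero =>
    refine (Set.finite_singleton ([] : List ℤ)).subset ?_
    rintro r ⟨hr, -⟩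
    exact List.length_eq_zero_iff.1 hr
  | succ N ih =>
    refine ((Set.finite_Icc (-2 : ℤ) 2).image2 List.cons ih).subset ?_
    rintro r ⟨hr, hb⟩
    cases r with
    | nil => simp at hr
    | cons a r =>
      refine ⟨a, ?_, r, ⟨by simpa using hr, fun b hb' => hb b (List.mem_cons_of_mem _ hb')⟩, rfl⟩
      have := hb a (List.mem_cons_self ..)
      exact abs_le.1 this

theorem e34_finite_data (N : ℕ) :
    {D : List (RootD n) × List ℤ | D.1.length = N ∧ D.2.length = N ∧ ∀ a ∈ D.2, |a| ≤ 2}.Finite := by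
  have : Finite (RootD n) := sc_finite_RootD
  refine ((List.finite_length_eq (RootD n) N).prod (e34_finite_intList N)).subset ?_
  rintro ⟨D1, D2⟩ ⟨h1, h2, h3⟩
  exact ⟨h1, h2, h3⟩

theorem e34_list_ext_fst_snd {α β : Type*} (l l' : List (α × β)) (h1 : l.map Prod.fst = l'.map Prod.fst)
    (h2 : l.map Prod.snd = l'.map Prod.snd) : l = l' := by
  induction l generalizing l' with
  | nil =>
    cases l' with
    | nil => rfl
    | cons p l' => simp at h1
  | cons p l ih =>
    cases l' with
    | nil => simp at h1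
    | cons q l' =>
      simp only [List.map_cons, List.cons.injEq] at h1 h2
      rw [ih l' h1.2 h2.2, Prod.ext h1.1 h2.1]

/-- finitely many witnesses with a given list of times -/
theorem e34_finite_wit (lam xi : Vec n) (θ : Shape n) (x : ℝ) (τ : List ℝ) :
    {w : WD n × List (ℝ × RootD n) × List ℤ |
      PreAug lam θ xi x w.1 w.2.1 w.2.2 ∧ w.2.1.map Prod.fst = τ}.Finite := by
  have : Finite (WD n) := sc_finite_WD
  refine Set.Finite.of_finite_image (f := fun w : WD n × List (ℝ × RootD n) × List ℤ =>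
    (w.1, (w.2.1.map Prod.snd, w.2.2))) ?_ ?_
  · refine ((Set.finite_univ (α := WD n)).prod (e34_finite_data (n := n) (n + 1))).subset ?_
    rintro _ ⟨⟨w0, l, r⟩, ⟨hW, -⟩, rfl⟩
    refine ⟨Set.mem_univ _, ?_, ?_, ?_⟩
    · simpa using hW.len
    · exact hW.rel.1.trans hW.len
    · exact e34_rel_bound l r hW.len hW.gen hW.rel
  · rintro ⟨w0, l, r⟩ ⟨-, h1⟩ ⟨w0', l', r'⟩ ⟨-, h1'⟩ e
    simp only [Prod.mk.injEq] at e
    obtain ⟨e1, e2, e3⟩ := e
    have : l = l' := e34_list_ext_fst_snd l l' (h1.trans h1'.symm) e2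
    rw [e1, this, e3]

/-- SORTING BY COMMUTATIONS.  An unsorted witness in which every inverted pair of switches is orthogonal
can be sorted.
Plan: `W := List ((ℝ × RootD n) × ℤ)`, `L₀ := l.zip r`,
`A := {L | L.Perm L₀ ∧ PreAug .. (L.map Prod.fst) (L.map Prod.snd) ∧ (L.map Prod.fst).Pairwise (fun p q => p.1 ≤ q.1 ∨ dot p.2.vec q.2.vec = 0)}`
(finite: `List.finite_toSet L₀.permutations`, `List.mem_permutations`), `T L := L.map (fun y => y.1.1)`.  `e34_lex_min`: an adjacent
inversion `b < a` splits `L = L₁ ++ P :: Q :: L₂` (`List.map_eq_append_iff`, `List.map_eq_cons_iff`), the pair is orthogonal by the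
`Pairwise` hypothesis (`List.pairwise_append`, `List.pairwise_cons`), `e34_moveSwap` gives `L₁ ++ Q :: P :: L₂ ∈ A`
(`List.Perm.swap`; the `Pairwise` property survives because orthogonality is symmetric, `sc_dot_comm`). -/
theorem e34_orth_sort (lam xi : Vec n) (θ : Shape n) (x : ℝ) (w0 : WD n)
    (l : List (ℝ × RootD n)) (r : List ℤ) (W : PreAug lam θ xi x w0 l r)
    (ho : l.Pairwise (fun p q => p.1 ≤ q.1 ∨ dot p.2.vec q.2.vec = 0)) :
    ∃ l' r', PreAug lam θ xi x w0 l' r' ∧ TSorted l' := by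
  have hlr : r.length = l.length := W.rel.1
  set L₀ : List ((ℝ × RootD n) × ℤ) := l.zip r with hL₀
  have h1 : L₀.map Prod.fst = l := List.map_fst_zip (by omega)
  have h2 : L₀.map Prod.snd = r := List.map_snd_zip (by omega)
  set A : Set (List ((ℝ × RootD n) × ℤ)) := {L | L.Perm L₀ ∧
    PreAug lam θ xi x w0 (L.map Prod.fst) (L.map Prod.snd) ∧
    (L.map Prod.fst).Pairwise (fun p q => p.1 ≤ q.1 ∨ dot p.2.vec q.2.vec = 0)} with hA
  have hfin : A.Finite := by
    refine (List.finite_toSet L₀.permutations).subset ?_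
    rintro L ⟨hp, -, -⟩
    exact List.mem_permutations.2 hp
  have hne : A.Nonempty := ⟨L₀, List.Perm.refl _, by rw [h1, h2]; exact W, by rw [h1]; exact ho⟩
  obtain ⟨L, ⟨-, hW, -⟩, hsort⟩ := e34_lex_min A hfin hne (fun L => L.map (fun y => y.1.1)) (by
    rintro L ⟨hp, hW, hR⟩ T₁ a b T₂ e hab
    obtain ⟨L₁, L', rfl, e1, e2⟩ := List.map_eq_append_iff.1 e
    obtain ⟨P, L'', rfl, eP, e3⟩ := List.map_eq_cons_iff.1 e2
    obtain ⟨Q, L₂, rfl, eQ, e4⟩ := List.map_eq_cons_iff.1 e3
    simp only [List.map_append, List.map_cons] at hW hR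
    rw [List.pairwise_append, List.pairwise_cons, List.pairwise_cons] at hR
    obtain ⟨r1, ⟨r2, r3, r4⟩, r5⟩ := hR
    have horth : dot P.1.2.vec Q.1.2.vec = 0 := by
      rcases r2 Q.1 (List.mem_cons_self ..) with h | h
      · rw [eP, eQ] at h
        exact absurd h (not_le.2 hab)
      · exact h
    have hW' := e34_moveSwap lam xi θ x w0 (L₁.map Prod.fst) (L₂.map Prod.fst) P.1 Q.1
      (L₁.map Prod.snd) (L₂.map Prod.snd) P.2 Q.2 (by simp) horth hW
    refine ⟨L₁ ++ Q :: P :: L₂, ⟨?_, ?_, ?_⟩, b, a :: T₂, ?_, hab⟩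
    · exact ((List.Perm.swap P Q L₂).append_left L₁).trans hp
    · simpa only [List.map_append, List.map_cons] using hW'
    · simp only [List.map_append, List.map_cons]
      rw [List.pairwise_append, List.pairwise_cons, List.pairwise_cons]
      refine ⟨r1, ⟨?_, ?_, r4⟩, ?_⟩
      · intro q hq
        rcases List.mem_cons.1 hq with rfl | hq
        · left
          rw [eP, eQ]
          exact hab.le
        · exact r3 q hq
      · intro q hq
        exact r2 q (List.mem_cons_of_mem _ hq)
      · intro p hp' q hq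
        refine r5 p hp' q ?_
        simp only [List.mem_cons] at hq ⊢
        tauto
    · simp only [List.map_append, List.map_cons]
      rw [e1, eP, eQ, e4])
  refine ⟨L.map Prod.fst, L.map Prod.snd, hW, ?_⟩
  rw [e34_tsorted_iff, List.map_map]
  exact hsort

end Claimed.Agent.R282
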